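import Vale.Agent.P011.H158.LinkAbs

/-!
# Linking two colours in one cell (finite group form)

`G` is a finite abelian group (the differences of the points of one cell), `f` a colouring.
`Hs u` and `Gs u ≤ Hs u` are decreasing chains of subgroups. If the colour `a` has density at
least `ε` in most cosets of `Hs U`, the colour `b` has density at least `ε`, and for every `u < U`
and every `Z ∈ Hs u` there is a weighted family of allowed moves in `Z + Gs u` which is
`η`-equidistributed modulo the characters trivial on `Gs (u + 1)`, then some allowed move goes from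
a point of colour `a` to a point of colour `b`.
-/

open Finset

namespace Vale.Agent.P011.H158

section

variable {G : Type*} [AddCommGroup G] [Fintype G]

/-- A weighted family of allowed moves in `Z + G0` which is `η`-equidistributed modulo the
characters trivial on `G1`. -/
def Equi (G0 G1 : AddSubgroup G) (Mv : Set G) (Z : G) (η : ℝ) : Prop :=
  ∃ (Ω : Type) (_ : Fintype Ω) (w : Ω → ℝ) (v : Ω → G), (∀ ω, 0 ≤ w ω) ∧ ∑ ω, w ω = 1 ∧
    (∀ ω, v ω ∈ Mv) ∧ (∀ ω, v ω - Z ∈ G0) ∧
    ∀ ψ : AddChar G ℂ, (∃ x ∈ G1, ψ x ≠ 1) → ‖∑ ω, (w ω : ℂ) * ψ (v ω)‖ ≤ η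

/-- Orthogonality of the conditional expectations. -/
theorem sum_avg_mul_avg {G0 G1 : AddSubgroup G} (h : G1 ≤ G0) (b : G → ℝ) :
    ∑ x, avg G0 b x * avg G1 b x = ∑ x, avg G0 b x ^ 2 := by
  rw [← sum_avg G0 (fun x => avg G0 b x * avg G1 b x)]
  refine Finset.sum_congr rfl fun x _ => ?_
  rw [avg_mul_left (fun x z hz => avg_add_mem G0 b x hz), avg_avg h, sq]

theorem sum_avg_sub_sq {G0 G1 : AddSubgroup G} (h : G1 ≤ G0) (b : G → ℝ) :
    ∑ x, (avg G1 b x - avg G0 b x) ^ 2 = ∑ x, avg G1 b x ^ 2 - ∑ x, avg G0 b x ^ 2 := by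
  have h1 := sum_avg_mul_avg h b
  have h2 : ∀ x, (avg G1 b x - avg G0 b x) ^ 2 =
      avg G1 b x ^ 2 + avg G0 b x ^ 2 - 2 * (avg G0 b x * avg G1 b x) := fun x => by ring
  simp_rw [h2]
  rw [Finset.sum_sub_distrib, Finset.sum_add_distrib, ← Finset.mul_sum, h1]
  ring

theorem avg_le_one {G0 : AddSubgroup G} {b : G → ℝ} (hb : ∀ x, b x ≤ 1) (x : G) :
    avg G0 b x ≤ 1 := by
  have := avg_mono (G0 := G0) hb x
  rwa [avg_const G0 1 x] at this

/-- Energy pigeonhole: some step of a decreasing chain of subgroups gains little energy. -/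
theorem exists_small_gain (Gs : ℕ → AddSubgroup G) (hG : Antitone Gs) {b : G → ℝ}
    (hb0 : ∀ x, 0 ≤ b x) (hb1 : ∀ x, b x ≤ 1) {U : ℕ} (hU : 0 < U) :
    ∃ u < U, ∑ x, (avg (Gs (u + 1)) b x - avg (Gs u) b x) ^ 2 ≤
      (Fintype.card G : ℝ) / U := by
  by_contra hcon
  push Not at hcon
  have hUr : (0 : ℝ) < U := by exact_mod_cast hU
  have h1 : ∑ u ∈ Finset.range U, (Fintype.card G : ℝ) / U <
      ∑ u ∈ Finset.range U, ∑ x, (avg (Gs (u + 1)) b x - avg (Gs u) b x) ^ 2 := by
    refine Finset.sum_lt_sum_of_nonempty ⟨0, by simpa using hU⟩ fun u hu => ?_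
    exact hcon u (by simpa using hu)
  have h2 : ∑ u ∈ Finset.range U, ∑ x, (avg (Gs (u + 1)) b x - avg (Gs u) b x) ^ 2 =
      ∑ x, avg (Gs U) b x ^ 2 - ∑ x, avg (Gs 0) b x ^ 2 := by
    simp_rw [fun u => sum_avg_sub_sq (hG (Nat.le_succ u)) b]
    exact Finset.sum_range_sub (fun u => ∑ x, avg (Gs u) b x ^ 2) U
  have h3 : ∑ x, avg (Gs U) b x ^ 2 ≤ (Fintype.card G : ℝ) := by
    calc ∑ x, avg (Gs U) b x ^ 2 ≤ ∑ _x : G, (1 : ℝ) := by
          refine Finset.sum_le_sum fun x _ => ?_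
          have h4 := avg_nonneg (G0 := Gs U) hb0 x
          have h5 := avg_le_one (G0 := Gs U) hb1 x
          nlinarith
      _ = _ := by simp
  have h4 : 0 ≤ ∑ x, avg (Gs 0) b x ^ 2 := Finset.sum_nonneg fun x _ => sq_nonneg _
  rw [h2, Finset.sum_const, Finset.card_range, nsmul_eq_mul, mul_div_cancel₀ _ hUr.ne'] at h1
  linarith

omit [AddCommGroup G] in
/-- Markov's inequality on a finite set. -/
theorem markov {σ : G → ℝ} (hσ : ∀ x, 0 ≤ σ x) {τ : ℝ} (hτ : 0 < τ) :
    ((univ.filter fun x => τ < σ x).card : ℝ) ≤ (∑ x, σ x) / τ := by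
  rw [le_div_iff₀ hτ]
  calc ((univ.filter fun x => τ < σ x).card : ℝ) * τ =
      ∑ _x ∈ univ.filter (fun x => τ < σ x), τ := by rw [Finset.sum_const, nsmul_eq_mul]
    _ ≤ ∑ x ∈ univ.filter (fun x => τ < σ x), σ x :=
        Finset.sum_le_sum fun x hx => (Finset.mem_filter.mp hx).2.le
    _ ≤ ∑ x, σ x :=
        Finset.sum_le_sum_of_subset_of_nonneg (Finset.filter_subset _ _) fun x _ _ => hσ x

/-- Some point of the coset `x + G0` has at least the mean value. -/
theorem exists_ge_avg (G0 : AddSubgroup G) (b : G → ℝ) (x : G) :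
    ∃ y, y - x ∈ G0 ∧ avg G0 b x ≤ b y := by
  classical
  by_contra hcon
  push Not at hcon
  have h0 := card_pos' G0
  have h1 : ∑ y : G0, b (x + y) < ∑ _y : G0, avg G0 b x :=
    Finset.sum_lt_sum_of_nonempty ⟨0, Finset.mem_univ _⟩ fun y _ =>
      hcon _ (by rw [add_sub_cancel_left]; exact y.2)
  rw [Finset.sum_const, Finset.card_univ, nsmul_eq_mul, ← Nat.card_eq_fintype_card] at h1
  have h2 : (Nat.card G0 : ℝ) * avg G0 b x = ∑ y : G0, b (x + y) := by
    unfold avg
    field_simp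
  linarith

omit [AddCommGroup G] [Fintype G] in
open Classical in
/-- The indicator of a colour. -/
noncomputable def col {R : Type*} (f : G → R) (a : R) (x : G) : ℝ := if f x = a then 1 else 0

omit [AddCommGroup G] [Fintype G] in
theorem col_nonneg {R : Type*} (f : G → R) (a : R) (x : G) : 0 ≤ col f a x := by
  unfold col
  split_ifs <;> norm_num

omit [AddCommGroup G] [Fintype G] in
theorem col_le_one {R : Type*} (f : G → R) (a : R) (x : G) : col f a x ≤ 1 := by
  unfold col
  split_ifs <;> norm_num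

omit [AddCommGroup G] [Fintype G] in
theorem of_col_ne {R : Type*} {f : G → R} {a : R} {x : G} (h : col f a x ≠ 0) : f x = a := by
  unfold col at h
  by_contra h'
  exact h (if_neg h')

open Classical in
/-- The main computation: link two dense cosets of `G0`, the second one stable. -/
theorem link_cosets {G0 G1 : AddSubgroup G} (h10 : G1 ≤ G0) {α β : G → ℝ}
    (hα0 : ∀ x, 0 ≤ α x) (hα1 : ∀ x, α x ≤ 1) (hβ0 : ∀ x, 0 ≤ β x) (hβ1 : ∀ x, β x ≤ 1)
    {xa xb : G} {ε η : ℝ} (hε : 0 < ε) (hη : 0 ≤ η) (hηε : η < ε ^ 2 / 16)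
    (ha : ε / 2 ≤ avg G0 α xa) (hb : ε / 4 ≤ avg G0 β xb)
    (hst : avg G0 (fun x => (avg G1 β x - avg G0 β x) ^ 2) xb ≤ ε ^ 4 / 256)
    {Ω : Type*} [Fintype Ω] (w : Ω → ℝ) (v : Ω → G) (hw : ∀ ω, 0 ≤ w ω) (hw1 : ∑ ω, w ω = 1)
    (hv : ∀ ω, v ω - (xb - xa) ∈ G0)
    (hψ : ∀ ψ : AddChar G ℂ, (∃ x ∈ G1, ψ x ≠ 1) → ‖∑ ω, (w ω : ℂ) * ψ (v ω)‖ ≤ η) :
    ∃ ω x, α x ≠ 0 ∧ β (x + v ω) ≠ 0 := by
  by_contra hcon
  push Not at hcon
  set S : ℝ := (Nat.card G0 : ℝ) with hS
  have hS0 : 0 < S := card_pos' G0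
  set a : G → ℝ := fun x => if x - xa ∈ G0 then α x else 0 with hadef
  set b : G → ℝ := fun x => if x - xb ∈ G0 then β x else 0 with hbdef
  set d : ℝ := avg G0 β xb with hd
  -- sums over the coset `xa + G0`
  have hsum : ∀ (y : G) (F : G → ℝ),
      ∑ x, (if x - y ∈ G0 then F x else 0) = ∑ z : G0, F (y + z) := by
    intro y F
    rw [← Finset.sum_filter]
    refine (Finset.sum_bij' (fun (z : G0) _ => y + (z : G))
      (fun x hx => (⟨x - y, (Finset.mem_filter.mp hx).2⟩ : G0)) ?_ ?_ ?_ ?_ ?_).symm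
    · intro z _
      simp
    · intro x hx
      simp
    · intro z _
      simp
    · intro x hx
      simp
    · intro z _
      rfl
  have hl := link_abs G1 w v hη hψ a b
  -- the norms
  have hna : ∑ x, a x ^ 2 ≤ S := by
    calc ∑ x, a x ^ 2 ≤ ∑ x, (if x - xa ∈ G0 then (1 : ℝ) else 0) := by
          refine Finset.sum_le_sum fun x _ => ?_
          rw [hadef]
          dsimp only
          split_ifs
          · have := hα0 x
            have := hα1 x
            nlinarith
          · norm_num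
      _ = ∑ _z : G0, (1 : ℝ) := hsum xa fun _ => 1
      _ = S := by rw [Finset.sum_const, Finset.card_univ, nsmul_eq_mul, mul_one, hS,
          Nat.card_eq_fintype_card]
  have hnb : ∑ x, b x ^ 2 ≤ S := by
    calc ∑ x, b x ^ 2 ≤ ∑ x, (if x - xb ∈ G0 then (1 : ℝ) else 0) := by
          refine Finset.sum_le_sum fun x _ => ?_
          rw [hbdef]
          dsimp only
          split_ifs
          · have := hβ0 x
            have := hβ1 x
            nlinarith
          · norm_num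
      _ = ∑ _z : G0, (1 : ℝ) := hsum xb fun _ => 1
      _ = S := by rw [Finset.sum_const, Finset.card_univ, nsmul_eq_mul, mul_one, hS,
          Nat.card_eq_fintype_card]
  have hprod : √(∑ x, a x ^ 2) * √(∑ x, b x ^ 2) ≤ S := by
    calc √(∑ x, a x ^ 2) * √(∑ x, b x ^ 2) ≤ √S * √S := by gcongr
      _ = S := Real.mul_self_sqrt hS0.le
  -- no linked pair: the product term vanishes
  have hzero : ∀ ω x, a x * b (x + v ω) = 0 := by
    intro ω x
    by_cases h : a x = 0
    · rw [h, zero_mul]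
    · have h2 : α x ≠ 0 := by
        intro h3
        apply h
        rw [hadef]
        dsimp only
        rw [h3, ite_self]
      have h4 := hcon ω x h2
      have h5 : b (x + v ω) = 0 := by
        rw [hbdef]
        dsimp only
        rw [h4, ite_self]
      rw [h5, mul_zero]
  have hT : ∑ ω, w ω * ∑ x, a x * (b (x + v ω) - avg G1 b (x + v ω)) =
      -∑ ω, w ω * ∑ x, a x * avg G1 b (x + v ω) := by
    rw [← Finset.sum_neg_distrib]
    refine Finset.sum_congr rfl fun ω _ => ?_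
    rw [← mul_neg, ← Finset.sum_neg_distrib]
    congr 1
    refine Finset.sum_congr rfl fun x _ => ?_
    rw [mul_sub, hzero, zero_sub]
  rw [hT, abs_neg] at hl
  have hup : ∑ ω, w ω * ∑ x, a x * avg G1 b (x + v ω) ≤ η * S :=
    (le_abs_self _).trans (hl.trans (mul_le_mul_of_nonneg_left hprod hη))
  -- the average of `b` on `xb + G0`
  have havg : ∀ x, x - xb ∈ G0 → avg G1 b x = avg G1 β x := by
    intro x hx
    unfold avg
    congr 1
    refine Finset.sum_congr rfl fun y _ => ?_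
    rw [hbdef]
    dsimp only
    rw [if_pos]
    rw [show x + (y : G) - xb = (x - xb) + y by abel]
    exact G0.add_mem hx (h10 y.2)
  -- mean deviation
  have hdev : ∑ z : G0, |avg G1 β (xb + z) - d| ≤ S * (ε ^ 2 / 16) := by
    have h1 : ∑ z : G0, (avg G1 β (xb + z) - d) ^ 2 ≤ S * (ε ^ 4 / 256) := by
      have h2 : avg G0 (fun x => (avg G1 β x - avg G0 β x) ^ 2) xb =
          (∑ z : G0, (avg G1 β (xb + z) - d) ^ 2) / S := by
        have h3 : ∀ z : G0, (avg G1 β (xb + z) - avg G0 β (xb + z)) ^ 2 =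
            (avg G1 β (xb + z) - d) ^ 2 := by
          intro z
          rw [avg_add_mem G0 β xb z.2]
        rw [← Finset.sum_congr rfl fun z _ => h3 z]
        rfl
      rw [h2, div_le_iff₀ hS0] at hst
      linarith
    have h2 : (∑ z : G0, |avg G1 β (xb + z) - d|) ^ 2 ≤
        S * ∑ z : G0, (avg G1 β (xb + z) - d) ^ 2 := by
      have := sq_sum_le_card_mul_sum_sq (s := (univ : Finset G0))
        (f := fun z : G0 => |avg G1 β (xb + z) - d|)
      simp_rw [sq_abs] at this
      rwa [Finset.card_univ, ← Nat.card_eq_fintype_card] at this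
    have h3 : (∑ z : G0, |avg G1 β (xb + z) - d|) ^ 2 ≤ (S * (ε ^ 2 / 16)) ^ 2 := by
      calc (∑ z : G0, |avg G1 β (xb + z) - d|) ^ 2 ≤
          S * ∑ z : G0, (avg G1 β (xb + z) - d) ^ 2 := h2
        _ ≤ S * (S * (ε ^ 4 / 256)) := by gcongr
        _ = _ := by ring
    exact (le_abs_self _).trans (abs_le_of_sq_le_sq h3 (by positivity))
  -- lower bound for each move
  have hlow : ∀ ω, ε ^ 2 / 16 * S ≤ ∑ x, a x * avg G1 b (x + v ω) := by
    intro ω
    have hmem : ∀ z : G0, xa + z + v ω - xb ∈ G0 := by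
      intro z
      rw [show xa + z + v ω - xb = z + (v ω - (xb - xa)) by abel]
      exact G0.add_mem z.2 (hv ω)
    have h1 : ∑ x, a x * avg G1 b (x + v ω) =
        ∑ z : G0, α (xa + z) * avg G1 β (xa + z + v ω) := by
      have : ∀ x, a x * avg G1 b (x + v ω) =
          if x - xa ∈ G0 then α x * avg G1 b (x + v ω) else 0 := by
        intro x
        rw [hadef]
        dsimp only
        split_ifs
        · rfl
        · rw [zero_mul]
      simp_rw [this]
      rw [hsum xa fun x => α x * avg G1 b (x + v ω)]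
      refine Finset.sum_congr rfl fun z _ => ?_
      rw [havg _ (hmem z)]
    have h2 : ∑ z : G0, |avg G1 β (xa + z + v ω) - d| = ∑ z : G0, |avg G1 β (xb + z) - d| := by
      refine Fintype.sum_equiv (Equiv.addRight (⟨v ω - (xb - xa), hv ω⟩ : G0)) _ _ fun z => ?_
      simp only [Equiv.coe_addRight, AddSubgroup.coe_add]
      rw [show xb + ((z : G) + (v ω - (xb - xa))) = xa + z + v ω by abel]
    have h3 : ∑ z : G0, (α (xa + z) * d - |avg G1 β (xa + z + v ω) - d|) ≤
        ∑ z : G0, α (xa + z) * avg G1 β (xa + z + v ω) := by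
      refine Finset.sum_le_sum fun z _ => ?_
      have h4 := hα0 (xa + z)
      have h5 := hα1 (xa + z)
      have h6 := neg_abs_le (avg G1 β (xa + z + v ω) - d)
      have h7 := abs_nonneg (avg G1 β (xa + z + v ω) - d)
      nlinarith
    have h4 : ∑ z : G0, (α (xa + z) * d - |avg G1 β (xa + z + v ω) - d|) =
        (S * avg G0 α xa) * d - ∑ z : G0, |avg G1 β (xb + z) - d| := by
      rw [Finset.sum_sub_distrib, h2, ← Finset.sum_mul]
      congr 2
      unfold avg
      rw [← hS, mul_div_cancel₀ _ hS0.ne']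
    rw [h1]
    refine le_trans ?_ h3
    rw [h4]
    have h5 : S * (ε / 2) * (ε / 4) ≤ S * avg G0 α xa * d := by
      have h0 : 0 < ε / 4 := by positivity
      gcongr
      exact mul_nonneg hS0.le ((by positivity : (0 : ℝ) ≤ ε / 2).trans ha)
    nlinarith
  have hfin : ε ^ 2 / 16 * S ≤ η * S := by
    calc ε ^ 2 / 16 * S = ∑ ω, w ω * (ε ^ 2 / 16 * S) := by rw [← Finset.sum_mul, hw1, one_mul]
      _ ≤ ∑ ω, w ω * ∑ x, a x * avg G1 b (x + v ω) :=
          Finset.sum_le_sum fun ω _ => mul_le_mul_of_nonneg_left (hlow ω) (hw ω)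
      _ ≤ η * S := hup
  have := le_of_mul_le_mul_right hfin hS0
  linarith

open Classical in
/-- **Linking two colours in one cell.** -/
theorem cell_link {R : Type*} (f : G → R) (a b : R) {U : ℕ} (Hs Gs : ℕ → AddSubgroup G)
    (hH : Antitone Hs) (hG : Antitone Gs) (hGH : ∀ u, Gs u ≤ Hs u) (Mv : Set G)
    {ε η : ℝ} (hε : 0 < ε) (hη : 0 ≤ η) (hηε : η < ε ^ 2 / 16)
    (hU : 1024 / ε ^ 5 < U)
    (ha : ((univ.filter fun x => avg (Hs U) (col f a) x < ε).card : ℝ) ≤
      ε / 8 * Fintype.card G)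
    (hb : ε * Fintype.card G ≤ ∑ x, col f b x)
    (hmv : ∀ u < U, ∀ Z ∈ Hs u, Equi (Gs u) (Gs (u + 1)) Mv Z η) :
    ∃ x, ∃ v ∈ Mv, f x = a ∧ f (x + v) = b := by
  have hUr : (0 : ℝ) < U := lt_trans (by positivity) hU
  have hU0 : 0 < U := by exact_mod_cast hUr
  have hN : (0 : ℝ) < Fintype.card G := by exact_mod_cast Fintype.card_pos
  set N : ℝ := (Fintype.card G : ℝ) with hNdef
  set α := col f a with hα
  set β := col f b with hβ
  have hα0 : ∀ x, 0 ≤ α x := col_nonneg f a
  have hα1 : ∀ x, α x ≤ 1 := col_le_one f a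
  have hβ0 : ∀ x, 0 ≤ β x := col_nonneg f b
  have hβ1 : ∀ x, β x ≤ 1 := col_le_one f b
  obtain ⟨u, hu, hgain⟩ := exists_small_gain Gs hG hβ0 hβ1 hU0
  -- the three sets
  set A1 := univ.filter fun x => avg (Hs u) α x < ε / 2 with hA1
  set A2 := univ.filter fun x => ε / 4 ≤ avg (Gs u) β x with hA2
  set σ : G → ℝ := fun x => (avg (Gs (u + 1)) β x - avg (Gs u) β x) ^ 2 with hσ
  set A3 := univ.filter fun x => ε ^ 4 / 256 < avg (Gs u) σ x with hA3
  have hσ0 : ∀ x, 0 ≤ σ x := fun x => sq_nonneg _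
  -- size of `A1`
  have c1 : (A1.card : ℝ) ≤ ε / 4 * N := by
    set B : G → ℝ := fun x => if avg (Hs U) α x < ε then 1 else 0 with hB
    have hB0 : ∀ x, 0 ≤ B x := fun x => by
      rw [hB]
      dsimp only
      split_ifs <;> norm_num
    have hBsum : ∑ x, B x ≤ ε / 8 * N := by
      rw [hB, ← Finset.sum_filter, Finset.sum_const, nsmul_eq_mul, mul_one]
      exact ha
    have hsub : A1 ⊆ univ.filter fun x => (1 : ℝ) / 2 < avg (Hs u) B x := by
      intro x hx
      rw [hA1, Finset.mem_filter] at hx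
      rw [Finset.mem_filter]
      refine ⟨Finset.mem_univ _, ?_⟩
      have h1 : avg (Hs u) (avg (Hs U) α) x = avg (Hs u) α x := avg_avg (hH hu.le) α x
      have h2 : ∀ y, ε - ε * B y ≤ avg (Hs U) α y := by
        intro y
        rw [hB]
        dsimp only
        split_ifs with h
        · have := avg_nonneg (G0 := Hs U) hα0 y
          linarith
        · push Not at h
          linarith
      have h3 : avg (Hs u) (fun y => ε + (-ε) * B y) x ≤ avg (Hs u) (avg (Hs U) α) x :=
        avg_mono (fun y => by linarith [h2 y]) x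
      rw [avg_add, avg_const, avg_mul_left (c := fun _ => -ε) (fun _ _ _ => rfl), h1] at h3
      by_contra hcon
      push Not at hcon
      nlinarith [hx.2]
    have h4 : ((univ.filter fun x => (1 : ℝ) / 2 < avg (Hs u) B x).card : ℝ) ≤
        (∑ x, avg (Hs u) B x) / (1 / 2) :=
      markov (fun x => avg_nonneg hB0 x) (by norm_num)
    rw [sum_avg] at h4
    have h5 : (A1.card : ℝ) ≤ ((univ.filter fun x => (1 : ℝ) / 2 < avg (Hs u) B x).card : ℝ) := by
      exact_mod_cast Finset.card_le_card hsub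
    linarith
  -- size of `A2`
  have c2 : 3 * ε / 4 * N ≤ (A2.card : ℝ) := by
    have h1 : ∑ x, avg (Gs u) β x ≤ (A2.card : ℝ) + ε / 4 * N := by
      have h2 : ∀ x, avg (Gs u) β x ≤ (if ε / 4 ≤ avg (Gs u) β x then (1 : ℝ) else 0) + ε / 4 := by
        intro x
        split_ifs with h
        · have := avg_le_one (G0 := Gs u) hβ1 x
          linarith
        · push Not at h
          linarith
      calc ∑ x, avg (Gs u) β x ≤
          ∑ x, ((if ε / 4 ≤ avg (Gs u) β x then (1 : ℝ) else 0) + ε / 4) :=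
            Finset.sum_le_sum fun x _ => h2 x
        _ = (A2.card : ℝ) + ε / 4 * N := by
            rw [Finset.sum_add_distrib, ← Finset.sum_filter, Finset.sum_const, Finset.sum_const,
              nsmul_eq_mul, mul_one, nsmul_eq_mul, Finset.card_univ, mul_comm (ε / 4)]
    rw [sum_avg] at h1
    linarith
  -- size of `A3`
  have c3 : (A3.card : ℝ) ≤ N / U / (ε ^ 4 / 256) := by
    have h1 := markov (σ := avg (Gs u) σ) (fun x => avg_nonneg hσ0 x)
      (τ := ε ^ 4 / 256) (by positivity)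
    rw [sum_avg] at h1
    refine h1.trans ?_
    gcongr
  have c3' : N / U / (ε ^ 4 / 256) < ε / 4 * N := by
    rw [div_div, div_lt_iff₀ (by positivity)]
    have h1 : 1024 < U * ε ^ 5 := by
      rwa [div_lt_iff₀ (by positivity)] at hU
    nlinarith [mul_lt_mul_of_pos_right h1 hN]
  -- choose `xb`
  obtain ⟨xb, hxb2, hxb1, hxb3⟩ : ∃ x, x ∈ A2 ∧ x ∉ A1 ∧ x ∉ A3 := by
    by_contra hcon
    push Not at hcon
    have h1 : A2 ⊆ A1 ∪ A3 := by
      intro x hx
      by_cases h : x ∈ A1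
      · exact Finset.mem_union_left _ h
      · exact Finset.mem_union_right _ (hcon x hx h)
    have h2 : (A2.card : ℝ) ≤ (A1.card : ℝ) + (A3.card : ℝ) := by
      exact_mod_cast (Finset.card_le_card h1).trans (Finset.card_union_le _ _)
    nlinarith
  rw [hA2, Finset.mem_filter] at hxb2
  rw [hA1, Finset.mem_filter, not_and] at hxb1
  rw [hA3, Finset.mem_filter, not_and] at hxb3
  have hb2 : ε / 4 ≤ avg (Gs u) β xb := hxb2.2
  have hb1 : ε / 2 ≤ avg (Hs u) α xb := not_lt.mp (hxb1 (Finset.mem_univ _))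
  have hb3 : avg (Gs u) σ xb ≤ ε ^ 4 / 256 := not_lt.mp (hxb3 (Finset.mem_univ _))
  -- choose `xa`
  obtain ⟨xa, hxa, hxa'⟩ := exists_ge_avg (Hs u) (avg (Gs u) α) xb
  rw [avg_avg (hGH u)] at hxa'
  have hZ : xb - xa ∈ Hs u := by
    have := (Hs u).neg_mem hxa
    rwa [neg_sub] at this
  obtain ⟨Ω, hΩ, w, v, hw, hw1, hvM, hvZ, hψ⟩ := hmv u hu _ hZ
  obtain ⟨ω, x, h1, h2⟩ := link_cosets (hG (Nat.le_succ u)) hα0 hα1 hβ0 hβ1 hε hη hηε
    (hb1.trans hxa') hb2 hb3 w v hw hw1 hvZ hψ
  exact ⟨x, v ω, hvM ω, of_col_ne h1, of_col_ne h2⟩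

end

end Vale.Agent.P011.H158
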