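import Vale.Agent.P011.H158.Cell

/-!
# The one-cell linking theorem for families of group boxes

`P` is a commutative ring (in the application `F[X]`), `Λ` a `P`-module, `Box g m` a finite
additive subgroup of `Λ` (the points of the lattice in the box of size `m` seen from the position
`g`). `cellGrp Q B` is `Q • Λ ∩ B`. The hypothesis `Moves Box Mv` says that in every large box, for
every displacement class `Z`, there is a weighted family of allowed moves in this class which is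
equidistributed up to characters trivial on a cell of the next level; the next level depends only
on the present level and on the precision.
-/

open Finset

namespace Vale.Agent.P011.H158

variable {P : Type*} [CommRing P] {Λ : Type*} [AddCommGroup Λ] [Module P Λ]

/-- The multiples of `Q`. -/
def mulSub (P : Type*) [CommRing P] (Λ : Type*) [AddCommGroup Λ] [Module P Λ] (Q : P) :
    AddSubgroup Λ :=
  (DistribSMul.toAddMonoidHom Λ Q).range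

theorem mem_mulSub {Q : P} {x : Λ} : x ∈ mulSub P Λ Q ↔ ∃ y : Λ, Q • y = x := by
  simp [mulSub, AddMonoidHom.mem_range]

theorem mulSub_anti {Q Q' : P} (h : Q ∣ Q') : mulSub P Λ Q' ≤ mulSub P Λ Q := by
  obtain ⟨c, rfl⟩ := h
  intro x hx
  obtain ⟨y, rfl⟩ := mem_mulSub.mp hx
  exact mem_mulSub.mpr ⟨c • y, by rw [smul_smul]⟩

/-- The cell group: the multiples of `Q` in the box `B`. -/
def cellGrp (Q : P) (B : AddSubgroup Λ) : AddSubgroup Λ := mulSub P Λ Q ⊓ B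

theorem cellGrp_mono {Q Q' : P} (h : Q ∣ Q') {B B' : AddSubgroup Λ} (hB : B' ≤ B) :
    cellGrp Q' B' ≤ cellGrp Q B :=
  inf_le_inf (mulSub_anti h) hB

/-- The moves available in the boxes, see the header. -/
def Moves {𝒢 : Type*} (Box : 𝒢 → ℕ → AddSubgroup Λ) (Q₀ : P) (Mv : Set Λ) : Prop :=
  ∀ Q : P, Q ≠ 0 → Q₀ ∣ Q → ∀ i : ℕ, ∀ η : ℝ, 0 < η → ∃ Q' : P, Q' ≠ 0 ∧ Q ∣ Q' ∧
    ∃ i' : ℕ, i ≤ i' ∧ ∃ m₀ : ℕ, ∀ g : 𝒢, ∀ m : ℕ, m₀ ≤ m → ∀ Z ∈ cellGrp Q (Box g m),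
      ∃ (Ω : Type) (_ : Fintype Ω) (w : Ω → ℝ) (v : Ω → Λ), (∀ ω, 0 ≤ w ω) ∧ ∑ ω, w ω = 1 ∧
        (∀ ω, v ω ∈ Mv) ∧ (∀ ω, v ω - Z ∈ cellGrp Q (Box g (m - i))) ∧
        ∀ χ : AddChar Λ ℂ, (∃ x ∈ cellGrp Q' (Box g (m - i')), χ x ≠ 1) →
          ‖∑ ω, (w ω : ℂ) * χ (v ω)‖ ≤ η

/-- Characters of subgroups extend. -/
def ExtChar (Λ : Type*) [AddCommGroup Λ] : Prop :=
  ∀ (H : AddSubgroup Λ) (ψ : AddChar H ℂ), ∃ χ : AddChar Λ ℂ, ∀ x : H, χ x = ψ x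

/-- A chain of levels. -/
theorem exists_levels {𝒢 : Type*} {Box : 𝒢 → ℕ → AddSubgroup Λ} {Q₀ : P} {Mv : Set Λ}
    (hM : Moves Box Q₀ Mv) (hQ₀ : Q₀ ≠ 0) {η : ℝ} (hη : 0 < η) :
    ∃ (Qs : ℕ → P) (is : ℕ → ℕ) (ms : ℕ → ℕ), Qs 0 = Q₀ ∧ is 0 = 0 ∧ (∀ u, Qs u ≠ 0) ∧
      (∀ u, Qs u ∣ Qs (u + 1)) ∧ (∀ u, is u ≤ is (u + 1)) ∧
      ∀ u, ∀ g : 𝒢, ∀ m : ℕ, ms u ≤ m → ∀ Z ∈ cellGrp (Qs u) (Box g m),
        ∃ (Ω : Type) (_ : Fintype Ω) (w : Ω → ℝ) (v : Ω → Λ), (∀ ω, 0 ≤ w ω) ∧ ∑ ω, w ω = 1 ∧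
          (∀ ω, v ω ∈ Mv) ∧ (∀ ω, v ω - Z ∈ cellGrp (Qs u) (Box g (m - is u))) ∧
          ∀ χ : AddChar Λ ℂ, (∃ x ∈ cellGrp (Qs (u + 1)) (Box g (m - is (u + 1))), χ x ≠ 1) →
            ‖∑ ω, (w ω : ℂ) * χ (v ω)‖ ≤ η := by
  classical
  let S := {q : P × ℕ // q.1 ≠ 0 ∧ Q₀ ∣ q.1}
  have step : ∀ s : S, ∃ s' : S, s.1.1 ∣ s'.1.1 ∧ s.1.2 ≤ s'.1.2 ∧ ∃ m₀ : ℕ,
      ∀ g : 𝒢, ∀ m : ℕ, m₀ ≤ m → ∀ Z ∈ cellGrp s.1.1 (Box g m),
        ∃ (Ω : Type) (_ : Fintype Ω) (w : Ω → ℝ) (v : Ω → Λ), (∀ ω, 0 ≤ w ω) ∧ ∑ ω, w ω = 1 ∧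
          (∀ ω, v ω ∈ Mv) ∧ (∀ ω, v ω - Z ∈ cellGrp s.1.1 (Box g (m - s.1.2))) ∧
          ∀ χ : AddChar Λ ℂ, (∃ x ∈ cellGrp s'.1.1 (Box g (m - s'.1.2)), χ x ≠ 1) →
            ‖∑ ω, (w ω : ℂ) * χ (v ω)‖ ≤ η := by
    rintro ⟨⟨Q, i⟩, hQ, hQ0⟩
    obtain ⟨Q', hQ', hd, i', hi, m₀, h⟩ := hM Q hQ hQ0 i η hη
    exact ⟨⟨⟨Q', i'⟩, hQ', hQ0.trans hd⟩, hd, hi, m₀, h⟩
  choose nxt hd hi mm hmm using step
  let s : ℕ → S := fun u => Nat.rec ⟨⟨Q₀, 0⟩, hQ₀, dvd_rfl⟩ (fun _ t => nxt t) u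
  refine ⟨fun u => (s u).1.1, fun u => (s u).1.2, fun u => mm (s u), rfl, rfl,
    fun u => (s u).2.1, fun u => hd (s u), fun u => hi (s u), fun u => hmm (s u)⟩

/-- **One-cell linking theorem for group boxes.** -/
theorem cell_box {𝒢 : Type*} {Box : 𝒢 → ℕ → AddSubgroup Λ} (hfin : ∀ g m, Finite (Box g m))
    (hmono : ∀ g, Monotone (Box g)) (hext : ExtChar Λ) {Q₀ : P} (hQ₀ : Q₀ ≠ 0) {Mv : Set Λ}
    (hM : Moves Box Q₀ Mv) {ε : ℝ} (hε : 0 < ε) :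
    ∃ Q₁ : P, Q₁ ≠ 0 ∧ Q₀ ∣ Q₁ ∧ ∃ m₀ : ℕ, ∀ g : 𝒢, ∀ m : ℕ, m₀ ≤ m →
      ∀ {R : Type} (f : Λ → R) (a b : R),
        ((Nat.card {x : cellGrp Q₀ (Box g m) //
          (Nat.card {y : cellGrp Q₁ (Box g m) // f (x + y) = a} : ℝ) <
            ε * Nat.card (cellGrp Q₁ (Box g m))} : ℝ) ≤
          ε / 8 * Nat.card (cellGrp Q₀ (Box g m))) →
        (ε * Nat.card (cellGrp Q₀ (Box g m)) ≤
          Nat.card {x : cellGrp Q₀ (Box g m) // f x = b}) →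
        ∃ x ∈ cellGrp Q₀ (Box g m), ∃ v ∈ Mv, v ∈ cellGrp Q₀ (Box g m) ∧
          f x = a ∧ f (x + v) = b := by
  classical
  set η : ℝ := ε ^ 2 / 32 with hηdef
  have hη : 0 < η := by positivity
  obtain ⟨Qs, is, ms, hQs0, his0, hne, hdvd, hile, hmv⟩ := exists_levels hM hQ₀ hη
  obtain ⟨U, hU⟩ := exists_nat_gt (1024 / ε ^ 5)
  have hdvd' : ∀ u v, u ≤ v → Qs u ∣ Qs v := by
    intro u v huv
    induction huv with
    | refl => exact dvd_rfl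
    | step _ ih => exact ih.trans (hdvd _)
  have his : Monotone is := monotone_nat_of_le_succ hile
  refine ⟨Qs U, hne U, hQs0 ▸ hdvd' 0 U (Nat.zero_le _),
    ∑ u ∈ Finset.range (U + 1), ms u, ?_⟩
  intro g m hm R f a b ha hb
  have hms : ∀ u, u ≤ U → ms u ≤ m := by
    intro u hu
    refine le_trans ?_ hm
    exact Finset.single_le_sum (f := ms) (fun _ _ => Nat.zero_le _)
      (Finset.mem_range.mpr (Nat.lt_succ_of_le hu))
  set H₀ := cellGrp Q₀ (Box g m) with hH₀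
  have hfinle : ∀ K : AddSubgroup Λ, K ≤ Box g m → Finite K := by
    intro K hK
    have := hfin g m
    exact Finite.of_injective (fun x : K => (⟨x, hK x.2⟩ : Box g m)) fun x y h =>
      Subtype.ext (congrArg (fun z : Box g m => (z : Λ)) h)
  have hfinH : Finite H₀ := hfinle H₀ inf_le_right
  let instH : Fintype H₀ := Fintype.ofFinite H₀
  let Hs : ℕ → AddSubgroup H₀ := fun u => (cellGrp (Qs u) (Box g m)).addSubgroupOf H₀
  let Gs : ℕ → AddSubgroup H₀ := fun u => (cellGrp (Qs u) (Box g (m - is u))).addSubgroupOf H₀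
  have hHs : Antitone Hs := fun u v huv x hx =>
    cellGrp_mono (hdvd' u v huv) le_rfl hx
  have hGs : Antitone Gs := fun u v huv x hx =>
    cellGrp_mono (hdvd' u v huv) (hmono g (Nat.sub_le_sub_left (his huv) m)) hx
  have hGH : ∀ u, Gs u ≤ Hs u := fun u x hx =>
    cellGrp_mono dvd_rfl (hmono g (Nat.sub_le m _)) hx
  have hle : ∀ u, cellGrp (Qs u) (Box g m) ≤ H₀ := fun u =>
    cellGrp_mono (hQs0 ▸ hdvd' 0 u (Nat.zero_le _)) le_rfl
  -- the colouring on the finite group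
  have key := cell_link (G := H₀) (fun x => f x) a b (U := U) Hs Gs hHs hGs hGH
    {x | (x : Λ) ∈ Mv} hε hη.le (by rw [hηdef]; linarith [sq_nonneg ε, pow_pos hε 2]) hU ?_ ?_ ?_
  · obtain ⟨x, v, hv, h1, h2⟩ := key
    exact ⟨x, x.2, v, hv, v.2, h1, by simpa using h2⟩
  · -- density of `a` in the cosets of `Hs U`
    have hfinU : Finite (cellGrp (Qs U) (Box g m)) := hfinle _ inf_le_right
    let instU : Fintype (cellGrp (Qs U) (Box g m)) := Fintype.ofFinite _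
    have hpos : (0 : ℝ) < Nat.card (cellGrp (Qs U) (Box g m)) := by
      exact_mod_cast Nat.card_pos
    have hcard : ∀ x : H₀, avg (Hs U) (col (fun x : H₀ => f x) a) x =
        (Nat.card {y : cellGrp (Qs U) (Box g m) // f (x + y) = a} : ℝ) /
          Nat.card (cellGrp (Qs U) (Box g m)) := by
      intro x
      have e := AddSubgroup.addSubgroupOfEquivOfLe (hle U)
      unfold avg
      rw [Nat.card_congr (AddSubgroup.addSubgroupOfEquivOfLe (hle U)).toEquiv]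
      congr 1
      rw [Nat.card_eq_fintype_card, Fintype.card_subtype, ← Finset.sum_boole]
      refine Fintype.sum_equiv (AddSubgroup.addSubgroupOfEquivOfLe (hle U)).toEquiv _ _ ?_
      intro y
      rfl
    have hset : (univ.filter fun x => avg (Hs U) (col (fun x : H₀ => f x) a) x < ε).card =
        Nat.card {x : H₀ // (Nat.card {y : cellGrp (Qs U) (Box g m) // f (x + y) = a} : ℝ) <
            ε * Nat.card (cellGrp (Qs U) (Box g m))} := by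
      rw [Nat.card_eq_fintype_card, Fintype.card_subtype]
      congr 1
      ext x
      simp only [Finset.mem_filter, Finset.mem_univ, true_and]
      rw [hcard, div_lt_iff₀ hpos]
    rw [hset, ← Nat.card_eq_fintype_card]
    exact ha
  · rw [← Nat.card_eq_fintype_card]
    refine hb.trans (le_of_eq ?_)
    rw [Nat.card_eq_fintype_card, Fintype.card_subtype, ← Finset.sum_boole]
    refine Finset.sum_congr rfl fun x _ => ?_
    rfl
  · intro u hu Z hZ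
    obtain ⟨Ω, hΩ, w, v, hw, hw1, hvM, hvZ, hχ⟩ := hmv u g m (hms u hu.le) Z hZ
    have hvH : ∀ ω, v ω ∈ H₀ := by
      intro ω
      have h1 : v ω - Z ∈ H₀ := hle u (cellGrp_mono dvd_rfl (hmono g (Nat.sub_le m _)) (hvZ ω))
      have := H₀.add_mem h1 Z.2
      rwa [sub_add_cancel] at this
    refine ⟨Ω, hΩ, w, fun ω => ⟨v ω, hvH ω⟩, hw, hw1, hvM, hvZ, ?_⟩
    rintro ψ ⟨x, hx, hψ⟩
    obtain ⟨χ, hχψ⟩ := hext H₀ ψ
    have h1 := hχ χ ⟨x, hx, by rw [hχψ]; exact hψ⟩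
    have h2 : ∀ ω, χ (v ω) = ψ ⟨v ω, hvH ω⟩ := fun ω => hχψ ⟨v ω, hvH ω⟩
    simp_rw [h2] at h1
    exact h1

end Vale.Agent.P011.H158
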