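import Vale.Agent.P011.H158.CellBox

/-!
Characters of subgroups of a group of prime exponent extend.
-/

open Polynomial

namespace Vale.Agent.P011.H158

/-- A subgroup of a module over `ZMod p` is a direct summand. -/
theorem exists_retraction {Λ : Type*} [AddCommGroup Λ] (p : ℕ) [Fact p.Prime] [Module (ZMod p) Λ]
    (H : AddSubgroup Λ) : ∃ π : Λ →+ H, ∀ x : H, π x = x := by
  obtain ⟨K, hK⟩ := Submodule.exists_isCompl (AddSubgroup.toZModSubmodule p H)
  refine ⟨
    { toFun := fun x => ⟨(AddSubgroup.toZModSubmodule p H).projectionOnto K hK x,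
        ((AddSubgroup.toZModSubmodule p H).projectionOnto K hK x).2⟩
      map_zero' := by ext; simp
      map_add' := fun x y => by ext; simp }, fun x => ?_⟩
  apply Subtype.ext
  have := Submodule.projectionOnto_apply_left hK
    (⟨x, x.2⟩ : AddSubgroup.toZModSubmodule p H)
  exact congrArg Subtype.val this

theorem extChar_of_exponent {Λ : Type*} [AddCommGroup Λ] (p : ℕ) [Fact p.Prime]
    (h : ∀ x : Λ, p • x = 0) : ExtChar Λ := by
  intro H ψ
  let _ : Module (ZMod p) Λ := AddCommGroup.zmodModule h
  obtain ⟨π, hπ⟩ := exists_retraction p H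
  refine ⟨ψ.compAddMonoidHom π, fun x => ?_⟩
  rw [AddChar.compAddMonoidHom_apply, hπ]

theorem extChar_pi (F : Type*) [Field F] [Finite F] (κ : Type*) : ExtChar (κ → F[X]) := by
  obtain ⟨p, hp⟩ := CharP.exists F
  have hpp : Fact p.Prime := ⟨by
    rcases CharP.char_is_prime_or_zero F p with h | h
    · exact h
    · exfalso
      subst h
      have : CharZero F := CharP.charP_to_charZero F
      exact not_finite F⟩
  refine extChar_of_exponent p fun x => ?_
  funext k
  rw [Pi.smul_apply, Pi.zero_apply]
  ext n
  rw [coeff_smul, coeff_zero, nsmul_eq_mul, CharP.cast_eq_zero, zero_mul]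

end Vale.Agent.P011.H158
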