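import Vale.Agent.P011.H158.LineAll

/-!
# The field generated by a symmetric element

`CF E`: the subalgebra `E` of the ring with involution `A` is commutative, stable under the
involution, and every nonzero element is invertible in it. `FE hE` is `E` as a type with the
structure of a field with involution.
-/

set_option linter.unusedSectionVars false

namespace Vale.Agent.P011.H158

open Vale.Agent.P011.H21 Vale.Agent.P011.H722 Vale.Agent.P011.H73.Gns
open Polynomial

/-- A commutative subfield stable under the involution. -/
structure CF {K A : Type*} [Field K] [Ring A] [StarRing A] [Algebra K A]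
    (E : Subalgebra K A) : Prop where
  comm : ∀ x ∈ E, ∀ y ∈ E, x * y = y * x
  star_mem : ∀ x ∈ E, star x ∈ E
  inv : ∀ x ∈ E, x ≠ 0 → ∃ y ∈ E, x * y = 1
  ne : (0 : A) ≠ 1

section

variable {K A : Type*} [Field K] [Ring A] [StarRing A] [Algebra K A] {E : Subalgebra K A}

/-- The type of the elements of `E`. -/
def FE (_hE : CF E) : Type _ := {x : A // x ∈ E}

variable (hE : CF E)

/-- The value in `A`. -/
def FE.val (x : FE hE) : A := Subtype.val x

noncomputable instance instRingFE : Ring (FE hE) := inferInstanceAs (Ring E)

theorem FE.ext {x y : FE hE} (h : x.val = y.val) : x = y := Subtype.ext h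

theorem FE.mem (x : FE hE) : x.val ∈ E := Subtype.property x

theorem FE.val_zero : (0 : FE hE).val = 0 := rfl

theorem FE.val_one : (1 : FE hE).val = 1 := rfl

theorem FE.val_mul (x y : FE hE) : (x * y).val = x.val * y.val := rfl

theorem FE.val_add (x y : FE hE) : (x + y).val = x.val + y.val := rfl

/-- The element of `FE hE` with a given value. -/
def FE.mk (x : A) (hx : x ∈ E) : FE hE := ⟨x, hx⟩

theorem FE.val_mk (x : A) (hx : x ∈ E) : (FE.mk hE x hx).val = x := rfl

open Classical in
/-- The inverse. -/
noncomputable def FE.inv (x : FE hE) : FE hE :=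
  if h : x.val ≠ 0 then FE.mk hE (hE.inv x.val x.mem h).choose
    (hE.inv x.val x.mem h).choose_spec.1 else 0

theorem FE.mul_inv (x : FE hE) (hx : x ≠ 0) : x * FE.inv hE x = 1 := by
  have hx' : x.val ≠ 0 := fun h => hx (FE.ext hE h)
  apply FE.ext
  rw [FE.val_mul, FE.inv, dif_pos hx', FE.val_mk, FE.val_one]
  exact (hE.inv x.val x.mem hx').choose_spec.2

theorem FE.inv_zero : FE.inv hE (0 : FE hE) = 0 := by
  rw [FE.inv, dif_neg]
  push Not
  rfl

noncomputable instance instFieldFE : Field (FE hE) :=
  { instRingFE hE with
    mul_comm := fun x y => FE.ext hE (hE.comm _ x.mem _ y.mem)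
    inv := FE.inv hE
    exists_pair_ne := ⟨0, 1, fun h => hE.ne (congrArg (FE.val hE) h)⟩
    mul_inv_cancel := fun x hx => FE.mul_inv hE x hx
    inv_zero := FE.inv_zero hE
    nnqsmul := _
    qsmul := _ }

noncomputable instance instStarFE : StarRing (FE hE) where
  star x := FE.mk hE (star x.val) (hE.star_mem _ x.mem)
  star_involutive x := FE.ext hE (star_star _)
  star_mul x y := FE.ext hE (star_mul _ _)
  star_add x y := FE.ext hE (star_add _ _)

/-- The structure map. -/
noncomputable def FE.algMap : K →+* FE hE where
  toFun x := FE.mk hE (algebraMap K A x) (E.algebraMap_mem x)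
  map_one' := FE.ext hE (map_one (algebraMap K A))
  map_mul' x y := FE.ext hE (map_mul (algebraMap K A) x y)
  map_zero' := FE.ext hE (map_zero (algebraMap K A))
  map_add' x y := FE.ext hE (map_add (algebraMap K A) x y)

noncomputable instance instAlgFE : Algebra K (FE hE) := (FE.algMap hE).toAlgebra

/-- The inclusion. -/
noncomputable def incl : FE hE →ₐ[K] A where
  toFun x := x.val
  map_one' := rfl
  map_mul' _ _ := rfl
  map_zero' := rfl
  map_add' _ _ := rfl
  commutes' _ := rfl

theorem incl_injective : Function.Injective (incl hE) := fun _ _ h => FE.ext hE h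

theorem incl_mem (x : FE hE) : incl hE x ∈ E := x.mem

theorem exists_incl {x : A} (hx : x ∈ E) : ∃ y : FE hE, incl hE y = x :=
  ⟨FE.mk hE x hx, rfl⟩

theorem incl_star (x : FE hE) : incl hE (star x) = star (incl hE x) := rfl

instance [StarRing K] [StarModule K A] : StarModule K (FE hE) where
  star_smul r x := by
    apply incl_injective hE
    rw [incl_star, Algebra.smul_def, map_mul, AlgHom.commutes, ← Algebra.smul_def, star_smul,
      Algebra.smul_def, Algebra.smul_def, map_mul, AlgHom.commutes, incl_star]

instance [FiniteDimensional K A] : FiniteDimensional K (FE hE) :=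
  FiniteDimensional.of_injective (incl hE).toLinearMap (incl_injective hE)

variable {k : Type*} [Field k] [Algebra k K]

noncomputable instance : Algebra k (FE hE) :=
  ((algebraMap K (FE hE)).comp (algebraMap k K)).toAlgebra

instance : IsScalarTower k K (FE hE) := IsScalarTower.of_algebraMap_eq fun _ => rfl

end

end Vale.Agent.P011.H158
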