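import Mathlib

/-!
# Good elements of a field extension

`k` is a field, `L` a finite extension, `e a : k` with `X ^ 2 + e X + a` without zeros in `L`
(in the application `e = w + w*`, `a = w w*` for a generator `w` of the quadratic extension `K`).
An element `z` of `L` is *good* if no difference of two conjugates of `z` has the square
`e ^ 2 - 4 a`.

* `span_inv_eq_top`: for a good generator `z` any `2 n - 1` distinct `1 / ν (z + c)`, `c : k`,
  span `L`, where `ν x = x ^ 2 + e x + a`. Every characteristic.
* `good_add`, `finite_not_good`: goodness is stable under `z ↦ z + b`, and all but finitely many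
  `h_p z = (z p - a) / (z + p + e)`, `p : k`, are good.
* `translate_of_good`: a homomorphism `f` of the torus which is trivial on `k` and has the
  translation property for good elements has the translation property.
-/

open Polynomial

namespace Vale.Agent.P011.H158

/-- A combination of `2 n` different simple fractions with sum of the coefficients zero has at
most `2 n - 2` zeros. -/
theorem cauchy_aux {Ω : Type*} [Field Ω] {ι : Type*} [Fintype ι] [DecidableEq ι] (y μ : ι → Ω)
    (hy : Function.Injective y) (hsum : ∑ j, μ j = 0) (S : Finset Ω)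
    (hS : Fintype.card ι ≤ S.card + 1) (hb : ∀ b ∈ S, ∀ j, b + y j ≠ 0)
    (h : ∀ b ∈ S, ∑ j, μ j / (b + y j) = 0) (j : ι) : μ j = 0 := by
  classical
  set N : Polynomial Ω := ∑ j, C (μ j) * ∏ l ∈ Finset.univ.erase j, (X + C (y l)) with hN
  have hcard : ∀ j : ι, (Finset.univ.erase j).card = Fintype.card ι - 1 := by
    intro j
    rw [Finset.card_erase_of_mem (Finset.mem_univ j), Finset.card_univ]
  have hpos : 0 < Fintype.card ι := Fintype.card_pos_iff.mpr ⟨j⟩
  have hprod : ∀ j : ι, (∏ l ∈ Finset.univ.erase j, (X + C (y l))).Monic := fun j =>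
    monic_prod_of_monic _ _ fun l _ => monic_X_add_C (y l)
  have hnat : ∀ j : ι, (∏ l ∈ Finset.univ.erase j, (X + C (y l))).natDegree =
      Fintype.card ι - 1 := by
    intro j
    rw [natDegree_prod_of_monic _ _ fun l _ => monic_X_add_C (y l)]
    simp [hcard j]
  have hdeg : N.degree < (Fintype.card ι - 1 : ℕ) := by
    rw [Polynomial.degree_lt_iff_coeff_zero]
    intro m hm
    rw [hN, finsetSum_coeff]
    rcases Nat.lt_or_ge (Fintype.card ι - 1) m with h1 | h1
    · refine Finset.sum_eq_zero fun j _ => ?_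
      rw [coeff_C_mul, coeff_eq_zero_of_natDegree_lt (by rw [hnat]; exact h1), mul_zero]
    · have hm' : m = Fintype.card ι - 1 := le_antisymm h1 hm
      rw [← hsum]
      refine Finset.sum_congr rfl fun j _ => ?_
      have := (hprod j).coeff_natDegree
      rw [hnat j] at this
      rw [coeff_C_mul, hm', this, mul_one]
  have hN0 : N = 0 := by
    refine eq_zero_of_degree_lt_of_eval_finset_eq_zero S ?_ ?_
    · refine lt_of_lt_of_le hdeg ?_
      have : Fintype.card ι - 1 ≤ S.card := by omega
      exact_mod_cast this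
    · intro b hbS
      have hne : ∀ l, b + y l ≠ 0 := hb b hbS
      have : eval b N = (∏ l, (b + y l)) * ∑ j, μ j / (b + y j) := by
        rw [hN, eval_finsetSum, Finset.mul_sum]
        refine Finset.sum_congr rfl fun j _ => ?_
        rw [eval_mul, eval_C, eval_prod, ← Finset.mul_prod_erase Finset.univ _ (Finset.mem_univ j)]
        simp only [eval_add, eval_X, eval_C]
        field_simp [hne j]
      rw [this, h b hbS, mul_zero]
  have hev : eval (-y j) N = μ j * ∏ l ∈ Finset.univ.erase j, (-y j + y l) := by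
    rw [hN, eval_finsetSum, Finset.sum_eq_single j]
    · rw [eval_mul, eval_C, eval_prod]
      simp only [eval_add, eval_X, eval_C]
    · intro i _ hij
      rw [eval_mul, eval_prod,
        Finset.prod_eq_zero (Finset.mem_erase.mpr ⟨hij.symm, Finset.mem_univ j⟩), mul_zero]
      simp
    · intro h1
      exact absurd (Finset.mem_univ j) h1
  rw [hN0, eval_zero] at hev
  rcases mul_eq_zero.mp hev.symm with h1 | h1
  · exact h1
  · exfalso
    obtain ⟨l, hl, hl0⟩ := Finset.prod_eq_zero_iff.mp h1
    have : y l = y j := by linear_combination hl0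
    exact (Finset.mem_erase.mp hl).1 (hy this)

section Good

variable {k L : Type*} [Field k] [Field L] [Algebra k L]

/-- No difference of two conjugates of `z` has the square `e ^ 2 - 4 a`. -/
def Good (e a : k) (z : L) : Prop :=
  ∀ σ τ : L →ₐ[k] AlgebraicClosure k,
    (σ z - τ z) ^ 2 ≠ algebraMap k (AlgebraicClosure k) (e ^ 2 - 4 * a)

theorem good_add {e a : k} {z : L} (h : Good e a z) (b : k) :
    Good e a (z + algebraMap k L b) := by
  intro σ τ
  have := h σ τ
  rw [map_add, map_add, AlgHom.commutes, AlgHom.commutes]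
  simpa using this

variable [FiniteDimensional k L]

/-- For a good generator any `2 n - 1` distinct elements `1 / ν (z + c)` span the field. -/
theorem span_inv_eq_top [Algebra.IsSeparable k L] {e a : k} {z : L}
    (hz : IntermediateField.adjoin k {z} = ⊤)
    (hnu : ∀ c : k, (z + algebraMap k L c) ^ 2 + algebraMap k L e * (z + algebraMap k L c) +
      algebraMap k L a ≠ 0)
    (hgood : Good e a z) (S : Finset k) (hS : 2 * Module.finrank k L ≤ S.card + 1) :
    Submodule.span k ((fun c : k => ((z + algebraMap k L c) ^ 2 +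
      algebraMap k L e * (z + algebraMap k L c) + algebraMap k L a)⁻¹) '' S) = ⊤ := by
  classical
  set Ω := AlgebraicClosure k with hΩ
  by_contra hne
  obtain ⟨φ, hφ, hφS⟩ := Submodule.exists_le_ker_of_lt_top _ (lt_top_iff_ne_top.mpr hne)
  -- the functional is a trace
  obtain ⟨l, hl⟩ : ∃ l : L, ∀ x, φ x = Algebra.trace k L (l * x) := by
    have hnd := traceForm_nondegenerate k L
    obtain ⟨l, hl⟩ := ((Algebra.traceForm k L).toDual hnd).surjective φ
    exact ⟨l, fun x => by rw [← hl]; rfl⟩
  have hl0 : l ≠ 0 := by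
    rintro rfl
    apply hφ
    ext x
    rw [hl]
    simp
  -- a root of the quadratic polynomial
  obtain ⟨w, hw⟩ : ∃ w : Ω, w ^ 2 + algebraMap k Ω e * w + algebraMap k Ω a = 0 := by
    have hdeg : (X ^ 2 + C (algebraMap k Ω e) * X + C (algebraMap k Ω a) : Polynomial Ω).degree ≠ 0 := by
      have : (X ^ 2 + C (algebraMap k Ω e) * X + C (algebraMap k Ω a) : Polynomial Ω).degree = 2 := by
        compute_degree!
      rw [this]
      decide
    obtain ⟨w, hw⟩ := IsAlgClosed.exists_root _ hdeg
    refine ⟨w, ?_⟩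
    simpa [IsRoot.def] using hw
  set w' : Ω := -w - algebraMap k Ω e with hw'
  have hfac : ∀ x : Ω, x ^ 2 + algebraMap k Ω e * x + algebraMap k Ω a = (x - w) * (x - w') := by
    intro x
    rw [hw']
    linear_combination hw
  have hΔ : (w - w') ^ 2 = algebraMap k Ω (e ^ 2 - 4 * a) := by
    rw [hw', map_sub, map_pow, map_mul, map_ofNat]
    linear_combination 4 * hw
  -- the points
  let y : (L →ₐ[k] Ω) × Bool → Ω := fun s => s.1 z - bif s.2 then w else w'
  let μ : (L →ₐ[k] Ω) × Bool → Ω := fun s => (bif s.2 then 1 else -1) * s.1 l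
  have hinj : ∀ σ τ : L →ₐ[k] Ω, σ z = τ z → σ = τ := by
    intro σ τ h
    have : (IntermediateField.adjoin k {z}).val.range ≤ AlgHom.equalizer σ τ := by
      rw [IntermediateField.range_val]
      intro x hx
      rw [IntermediateField.mem_toSubalgebra] at hx
      induction hx using IntermediateField.adjoin_induction with
      | mem x hx =>
        rw [Set.mem_singleton_iff.mp hx]
        exact h
      | algebraMap x => exact (σ.commutes x).trans (τ.commutes x).symm
      | add x y _ _ hx hy =>
        show σ (x + y) = τ (x + y)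
        rw [map_add, map_add]
        exact congrArg₂ _ hx hy
      | inv x _ hx =>
        show σ x⁻¹ = τ x⁻¹
        rw [map_inv₀, map_inv₀]
        exact congrArg _ hx
      | mul x y _ _ hx hy =>
        show σ (x * y) = τ (x * y)
        rw [map_mul, map_mul]
        exact congrArg₂ _ hx hy
    ext x
    have hx : x ∈ (IntermediateField.adjoin k {z}).val.range := by
      rw [IntermediateField.range_val, IntermediateField.mem_toSubalgebra, hz]
      exact IntermediateField.mem_top
    exact this hx
  have hyinj : Function.Injective y := by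
    rintro ⟨σ, s⟩ ⟨τ, t⟩ h
    have h' : σ z - (bif s then w else w') = τ z - (bif t then w else w') := h
    cases s <;> cases t
    · have : σ z = τ z := by simpa using h'
      rw [hinj σ τ this]
    · exfalso
      apply hgood σ τ
      rw [← hΔ]
      have : σ z - τ z = -(w - w') := by
        have : σ z - w' = τ z - w := h'
        linear_combination this
      rw [this]
      ring
    · exfalso
      apply hgood σ τ
      rw [← hΔ]
      have : σ z - τ z = w - w' := by
        have : σ z - w = τ z - w' := h'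
        linear_combination this
      rw [this]
    · have : σ z = τ z := by simpa using h'
      rw [hinj σ τ this]
  have hcard : Fintype.card ((L →ₐ[k] Ω) × Bool) = 2 * Module.finrank k L := by
    rw [Fintype.card_prod, Fintype.card_bool, AlgHom.card]
    ring
  have hnuσ : ∀ (σ : L →ₐ[k] Ω) (c : k),
      (algebraMap k Ω c + (σ z - w)) * (algebraMap k Ω c + (σ z - w')) =
        σ ((z + algebraMap k L c) ^ 2 + algebraMap k L e * (z + algebraMap k L c) +
          algebraMap k L a) := by
    intro σ c
    simp only [map_add, map_pow, map_mul, AlgHom.commutes]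
    rw [hfac]
    ring
  have hnuσ0 : ∀ (σ : L →ₐ[k] Ω) (c : k),
      (algebraMap k Ω c + (σ z - w)) * (algebraMap k Ω c + (σ z - w')) ≠ 0 := by
    intro σ c
    rw [hnuσ]
    intro h
    exact hnu c ((map_eq_zero σ).mp h)
  have hww : w - w' ≠ 0 := by
    intro h
    obtain ⟨σ⟩ : Nonempty (L →ₐ[k] Ω) := ⟨IsAlgClosed.lift⟩
    apply hgood σ σ
    rw [← hΔ, h]
    ring
  have key := cauchy_aux y μ hyinj ?_ (S.map ⟨algebraMap k Ω, (algebraMap k Ω).injective⟩) ?_ ?_ ?_
  · obtain ⟨σ⟩ : Nonempty (L →ₐ[k] Ω) := ⟨IsAlgClosed.lift⟩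
    have := key (σ, true)
    simp only [μ, cond_true, one_mul] at this
    exact hl0 ((map_eq_zero σ).mp this)
  · rw [Fintype.sum_prod_type]
    refine Finset.sum_eq_zero fun σ _ => ?_
    rw [Fintype.sum_bool]
    simp only [μ, cond_true, cond_false]
    ring
  · rw [hcard, Finset.card_map]
    exact hS
  · intro b hb
    obtain ⟨c, hc, rfl⟩ := Finset.mem_map.mp hb
    rintro ⟨σ, s⟩
    have := hnuσ0 σ c
    cases s
    · exact right_ne_zero_of_mul this
    · exact left_ne_zero_of_mul this
  · intro b hb
    obtain ⟨c, hc, rfl⟩ := Finset.mem_map.mp hb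
    have h1 : φ (((z + algebraMap k L c) ^ 2 + algebraMap k L e * (z + algebraMap k L c) +
      algebraMap k L a)⁻¹) = 0 := hφS (Submodule.subset_span ⟨c, hc, rfl⟩)
    rw [hl] at h1
    have h2 := congrArg (algebraMap k Ω) h1
    rw [trace_eq_sum_embeddings Ω, map_zero] at h2
    rw [Fintype.sum_prod_type]
    have h3 : ∀ σ : L →ₐ[k] Ω, ∑ s : Bool, μ (σ, s) /
        ((⟨algebraMap k Ω, (algebraMap k Ω).injective⟩ : k ↪ Ω) c + y (σ, s)) =
        (w - w') * σ (l * ((z + algebraMap k L c) ^ 2 +
          algebraMap k L e * (z + algebraMap k L c) + algebraMap k L a)⁻¹) := by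
      intro σ
      rw [Fintype.sum_bool, map_mul, map_inv₀, ← hnuσ]
      have hA := left_ne_zero_of_mul (hnuσ0 σ c)
      have hB := right_ne_zero_of_mul (hnuσ0 σ c)
      simp only [μ, y, cond_true, cond_false, Function.Embedding.coeFn_mk]
      rw [div_add_div _ _ hA hB, ← div_eq_mul_inv, mul_div_assoc']
      congr 1
      ring
    rw [Finset.sum_congr rfl fun σ _ => h3 σ, ← Finset.mul_sum, h2, mul_zero]

end Good

section Finite

/-- The zeros of a nonzero polynomial of degree at most two. -/
theorem quad_finite {F : Type*} [Field F] (A B C' : F) (h : ¬(A = 0 ∧ B = 0 ∧ C' = 0)) :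
    {p : F | A * p ^ 2 + B * p + C' = 0}.Finite := by
  classical
  set P : Polynomial F := C A * X ^ 2 + C B * X + C C' with hP
  have hP0 : P ≠ 0 := by
    intro h0
    apply h
    refine ⟨?_, ?_, ?_⟩
    · have := congrArg (fun q => coeff q 2) h0
      simpa [hP, coeff_X, coeff_C] using this
    · have := congrArg (fun q => coeff q 1) h0
      simpa [hP, coeff_X, coeff_C] using this
    · have := congrArg (fun q => coeff q 0) h0
      simpa [hP] using this
  refine Set.Finite.subset (P.roots.toFinset.finite_toSet) ?_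
  intro p hp
  have hp' : A * p ^ 2 + B * p + C' = 0 := hp
  rw [Finset.mem_coe, Multiset.mem_toFinset, mem_roots hP0, IsRoot.def, hP]
  simpa using hp'

variable {k L : Type*} [Field k] [Field L] [Algebra k L] [FiniteDimensional k L]

/-- All but finitely many `(z p - a) / (z + p + e)`, `p` in the small field, are good. -/
theorem finite_not_good {e a : k} (hD : e ^ 2 - 4 * a ≠ 0)
    (hnu : ∀ z : L, z ^ 2 + algebraMap k L e * z + algebraMap k L a ≠ 0) {z : L}
    (hz : ∀ b : k, z ≠ algebraMap k L b) :
    {p : k | ¬ Good e a ((z * algebraMap k L p - algebraMap k L a) /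
      (z + algebraMap k L p + algebraMap k L e))}.Finite := by
  classical
  set Ω := AlgebraicClosure k with hΩ
  obtain ⟨δ, hδ⟩ : ∃ δ : Ω, δ ^ 2 = algebraMap k Ω (e ^ 2 - 4 * a) :=
    IsAlgClosed.exists_pow_nat_eq _ (by norm_num)
  have hδ0 : δ ≠ 0 := by
    rintro rfl
    apply hD
    have : algebraMap k Ω (e ^ 2 - 4 * a) = 0 := by
      rw [← hδ]
      ring
    exact (map_eq_zero _).mp this
  have hfin : Finite (L →ₐ[k] Ω) := inferInstance
  -- the bad set of a pair of embeddings and a sign
  let Bad : (L →ₐ[k] Ω) × (L →ₐ[k] Ω) × Bool → Set Ω := fun s =>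
    {p | (s.1 z - s.2.1 z - (bif s.2.2 then 1 else -1) * δ) * p ^ 2 +
      ((s.1 z - s.2.1 z) * algebraMap k Ω e - (bif s.2.2 then 1 else -1) * δ *
        (s.1 z + s.2.1 z + 2 * algebraMap k Ω e)) * p +
      ((s.1 z - s.2.1 z) * algebraMap k Ω a - (bif s.2.2 then 1 else -1) * δ *
        ((s.1 z + algebraMap k Ω e) * (s.2.1 z + algebraMap k Ω e))) = 0}
  have hBad : ∀ s, (Bad s).Finite := by
    rintro ⟨σ, τ, s⟩
    refine quad_finite _ _ _ ?_
    rintro ⟨h2, h1, h0⟩
    simp only at h2 h1 h0
    set ε : Ω := bif s then 1 else -1 with hε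
    have hε0 : ε ≠ 0 := by
      cases s
      · simp [hε]
      · simp [hε]
    have hxy : σ z - τ z = ε * δ := by linear_combination h2
    have hεδ : ε * δ ≠ 0 := mul_ne_zero hε0 hδ0
    rw [hxy] at h1 h0
    have h3 : σ z + τ z + algebraMap k Ω e = 0 := by
      have : ε * δ * (σ z + τ z + algebraMap k Ω e) = 0 := by linear_combination -h1
      exact (mul_eq_zero.mp this).resolve_left hεδ
    have h4 : algebraMap k Ω a = (σ z + algebraMap k Ω e) * (τ z + algebraMap k Ω e) := by
      have : ε * δ * (algebraMap k Ω a -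
          (σ z + algebraMap k Ω e) * (τ z + algebraMap k Ω e)) = 0 := by
        linear_combination h0
      exact sub_eq_zero.mp ((mul_eq_zero.mp this).resolve_left hεδ)
    apply hnu z
    apply (map_eq_zero σ).mp
    simp only [map_add, map_pow, map_mul, AlgHom.commutes]
    rw [h4]
    linear_combination (σ z + algebraMap k Ω e) * h3
  have hall : (⋃ s, (algebraMap k Ω) ⁻¹' (Bad s)).Finite :=
    Set.finite_iUnion fun s => (hBad s).preimage (algebraMap k Ω).injective.injOn
  refine hall.subset ?_
  intro p hp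
  have hp' : ¬ Good e a ((z * algebraMap k L p - algebraMap k L a) /
      (z + algebraMap k L p + algebraMap k L e)) := hp
  unfold Good at hp'
  push Not at hp'
  obtain ⟨σ, τ, h⟩ := hp'
  have hden : z + algebraMap k L p + algebraMap k L e ≠ 0 := by
    intro h0
    apply hz (-(p + e))
    rw [map_neg, map_add]
    linear_combination h0
  have hσ : σ z + algebraMap k Ω p + algebraMap k Ω e ≠ 0 := by
    intro h0
    apply hden
    apply (map_eq_zero σ).mp
    simpa only [map_add, AlgHom.commutes] using h0
  have hτ : τ z + algebraMap k Ω p + algebraMap k Ω e ≠ 0 := by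
    intro h0
    apply hden
    apply (map_eq_zero τ).mp
    simpa only [map_add, AlgHom.commutes] using h0
  rw [← hδ] at h
  simp only [map_div₀, map_sub, map_mul, map_add, AlgHom.commutes] at h
  rcases sq_eq_sq_iff_eq_or_eq_neg.mp h with h1 | h1
  · refine Set.mem_iUnion.mpr ⟨(σ, τ, true), ?_⟩
    show _ = (0 : Ω)
    simp only [cond_true, one_mul]
    rw [div_sub_div _ _ hσ hτ, div_eq_iff (mul_ne_zero hσ hτ)] at h1
    linear_combination h1
  · refine Set.mem_iUnion.mpr ⟨(σ, τ, false), ?_⟩
    show _ = (0 : Ω)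
    simp only [cond_false]
    rw [div_sub_div _ _ hσ hτ, div_eq_iff (mul_ne_zero hσ hτ)] at h1
    linear_combination h1

end Finite

section Path

variable {k L : Type*} [Field k] [Field L] [Algebra k L]

/-- A rotation by `p` written as `p - ν(p) / (z + p + e)`. -/
theorem rot_eq {e a p z : L} (h : z + p + e ≠ 0) :
    (z * p - a) / (z + p + e) = p - (p ^ 2 + e * p + a) / (z + p + e) := by
  field_simp
  ring

/-- The inverse rotation by `q` of `q - n`. -/
theorem rot_inv_eq {e a q n : L} (hn : n ≠ 0) :
    ((q - n) * (-q - e) - a) / (q - n + (-q - e) + e) =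
      (q ^ 2 + e * q + a) / n - (q + e) := by
  have h : q - n + (-q - e) + e = -n := by ring
  rw [h]
  field_simp
  ring

theorem alg1 {z P E A : L} (hD : z + P + E ≠ 0) (h2 : 2 * P + E ≠ 0)
    (h : P - (P ^ 2 + E * P + A) / (z + P + E) + P + E = 0) :
    z = (P ^ 2 + E * P + A) / (2 * P + E) - P - E := by
  have h1 : (z + P + E) * (2 * P + E) = P ^ 2 + E * P + A := by
    field_simp at h
    linear_combination h
  rw [← h1, mul_div_cancel_right₀ _ h2]
  ring

theorem alg2 {z P E A : L} (h0 : 2 * P + E ≠ 0) (h1 : z + (P ^ 2 - A) / (2 * P + E) + E ≠ 0)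
    (hD : z + P + E ≠ 0) (h2 : (z * P - A) / (z + P + E) + P + E ≠ 0) :
    (z * ((P ^ 2 - A) / (2 * P + E)) - A) / (z + (P ^ 2 - A) / (2 * P + E) + E) =
      ((z * P - A) / (z + P + E) * P - A) / ((z * P - A) / (z + P + E) + P + E) := by
  rw [div_eq_div_iff h1 h2]
  have hX : (P ^ 2 - A) / (2 * P + E) * (2 * P + E) = P ^ 2 - A := div_mul_cancel₀ _ h0
  have hN : (z * P - A) / (z + P + E) * (z + P + E) = z * P - A := div_mul_cancel₀ _ hD
  generalize (P ^ 2 - A) / (2 * P + E) = X at hX h1 ⊢
  generalize (z * P - A) / (z + P + E) = N at hN h2 ⊢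
  apply mul_right_cancel₀ hD
  linear_combination ((z * X - A) - P * (z + X + E)) * hN + (z ^ 2 + E * z + A) * hX

theorem alg3 {F : Type*} [Field F] {p e a : F} (h : 2 * p + e ≠ 0) :
    1 * p ^ 2 + (-2 * ((p ^ 2 - a) / (2 * p + e))) * p +
      (-a - ((p ^ 2 - a) / (2 * p + e)) * e) = 0 := by
  have hX : (p ^ 2 - a) / (2 * p + e) * (2 * p + e) = p ^ 2 - a := div_mul_cancel₀ _ h
  generalize (p ^ 2 - a) / (2 * p + e) = X at hX ⊢
  linear_combination -hX

theorem alg4 {z P B E A : L} (hD : z + P + E ≠ 0) (hP : P ^ 2 + E * P + A ≠ 0) :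
    ((P - B) ^ 2 + E * (P - B) + A) /
        ((P ^ 2 + E * P + A) / (P - (P ^ 2 + E * P + A) / (z + P + E) + P + E)) - (P - B + E) =
      ((P - B) - ((P - B) ^ 2 + E * (P - B) + A) / (z + P + E)) +
        -(2 * (P - B) + E - (2 * P + E) *
          ((P - B) ^ 2 + E * (P - B) + A) / (P ^ 2 + E * P + A)) := by
  generalize (P - B) ^ 2 + E * (P - B) + A = V
  generalize P ^ 2 + E * P + A = N at hP ⊢
  generalize z + P + E = D at hD ⊢
  rw [div_div_eq_mul_div]
  field_simp
  ring

theorem alg5 {z P B E A : L} (hD : z + P + E ≠ 0) (hq : (P - B) ^ 2 + E * (P - B) + A ≠ 0) :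
    ((P - B) ^ 2 + E * (P - B) + A) / (((P - B) ^ 2 + E * (P - B) + A) / (z + P + E)) -
      (P - B + E) = z + B := by
  rw [div_div_cancel₀ hq]
  ring

variable [FiniteDimensional k L]

/-- **The line theorem for good elements implies the line theorem.** -/
theorem translate_of_good {Q : Type*} [Group Q] [Infinite k] {e a : k} (hD : e ^ 2 - 4 * a ≠ 0)
    (hnu : ∀ z : L, z ^ 2 + algebraMap k L e * z + algebraMap k L a ≠ 0) {f : L → Q}
    (hmul : ∀ z w : L, z + w + algebraMap k L e ≠ 0 →
      f z * f w = f ((z * w - algebraMap k L a) / (z + w + algebraMap k L e)))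
    (hbase : ∀ b : k, f (algebraMap k L b) = 1)
    (hline : ∀ z : L, Good e a z → f z = 1 → ∀ b : k, f (z + algebraMap k L b) = 1) (z : L)
    (hz : f z = 1) (b : k) : f (z + algebraMap k L b) = 1 := by
  classical
  by_cases hzk : ∃ c : k, z = algebraMap k L c
  · obtain ⟨c, rfl⟩ := hzk
    rw [← map_add]
    exact hbase _
  push Not at hzk
  have hzk' : ∀ c : k, z + algebraMap k L b ≠ algebraMap k L c := by
    intro c h
    apply hzk (c - b)
    rw [map_sub]
    linear_combination h
  -- the exceptional parameters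
  set S := {p : k | ¬ Good e a ((z * algebraMap k L p - algebraMap k L a) /
      (z + algebraMap k L p + algebraMap k L e))} with hS
  have hSfin : S.Finite := finite_not_good hD hnu hzk
  set S' := {p : k | ¬ Good e a (((z + algebraMap k L b) * algebraMap k L p - algebraMap k L a) /
      (z + algebraMap k L b + algebraMap k L p + algebraMap k L e))} with hS'
  have hS'fin : S'.Finite := finite_not_good hD hnu hzk'
  have h2e : ¬((0 : k) = 0 ∧ (2 : k) = 0 ∧ e = 0) := by
    rintro ⟨-, h2, h0⟩
    apply hD
    rw [h0]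
    linear_combination (-2 * a) * h2
  have hB : ({p : k | 0 * p ^ 2 + 2 * p + e = 0} ∪
      (⋃ c ∈ S, {p : k | 1 * p ^ 2 + (-2 * c) * p + (-a - c * e) = 0}) ∪
      (fun p : k => p - b) ⁻¹' S').Finite := by
    refine Set.Finite.union (Set.Finite.union (quad_finite _ _ _ h2e) ?_) ?_
    · exact hSfin.biUnion fun c _ => quad_finite _ _ _ fun h => one_ne_zero h.1
    · exact hS'fin.preimage (sub_left_injective.injOn)
  obtain ⟨p, hp⟩ := hB.infinite_compl.nonempty
  rw [Set.mem_compl_iff, Set.mem_union, Set.mem_union, not_or, not_or] at hp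
  obtain ⟨⟨hp1, hp2⟩, hp3⟩ := hp
  have hp1' : 2 * p + e ≠ 0 := by
    intro h
    apply hp1
    show (0 : k) * p ^ 2 + 2 * p + e = 0
    linear_combination h
  -- notation
  set E := algebraMap k L e with hE
  set A := algebraMap k L a with hA
  set P := algebraMap k L p with hP
  set B := algebraMap k L b with hB'
  have hnuP : P ^ 2 + E * P + A ≠ 0 := hnu P
  have hnuq : (P - B) ^ 2 + E * (P - B) + A ≠ 0 := hnu (P - B)
  have hD1 : z + P + E ≠ 0 := by
    intro h
    apply hzk (-p - e)
    rw [map_sub, map_neg]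
    linear_combination h
  have hrot : ∀ (x : L) (c : k), x + algebraMap k L c + E ≠ 0 → f x = 1 →
      f ((x * algebraMap k L c - A) / (x + algebraMap k L c + E)) = 1 := by
    intro x c h hx
    rw [← hmul x _ h, hx, hbase, one_mul]
  -- `z1`, `z2`
  set z1 := (z * P - A) / (z + P + E) with hz1
  have hf1 : f z1 = 1 := hrot z p hD1 hz
  have hz1' : z1 = P - (P ^ 2 + E * P + A) / (z + P + E) := rot_eq hD1
  have h2P : (2 * P + E : L) ≠ 0 := by
    have : (2 * P + E : L) = algebraMap k L (2 * p + e) := by
      rw [map_add, map_mul, map_ofNat]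
    rw [this]
    exact (_root_.map_ne_zero _).mpr hp1'
  have hD2 : z1 + P + E ≠ 0 := by
    intro h
    apply hzk ((p ^ 2 + e * p + a) / (2 * p + e) - p - e)
    rw [hz1'] at h
    rw [map_sub, map_sub, map_div₀, map_add, map_add, map_add, map_pow, map_mul, map_mul,
      map_ofNat]
    exact alg1 hD1 h2P h
  set z2 := (z1 * P - A) / (z1 + P + E) with hz2
  have hf2 : f z2 = 1 := hrot z1 p hD2 hf1
  have hz2' : z2 = P - (P ^ 2 + E * P + A) / (z1 + P + E) := rot_eq hD2
  -- `z2` is good
  have hgood2 : Good e a z2 := by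
    by_contra hng
    apply hp2
    refine Set.mem_iUnion₂.mpr ⟨(p ^ 2 - a) / (2 * p + e), ?_, ?_⟩
    · show ¬ Good e a _
      have : (z * algebraMap k L ((p ^ 2 - a) / (2 * p + e)) - algebraMap k L a) /
          (z + algebraMap k L ((p ^ 2 - a) / (2 * p + e)) + algebraMap k L e) = z2 := by
        rw [map_div₀, map_sub, map_add, map_mul, map_pow, map_ofNat, ← hE, ← hA, ← hP, hz2, hz1]
        have h1 : z + (P ^ 2 - A) / (2 * P + E) + E ≠ 0 := by
          intro h
          apply hzk (-((p ^ 2 - a) / (2 * p + e)) - e)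
          rw [map_sub, map_neg, map_div₀, map_sub, map_add, map_mul, map_pow, map_ofNat]
          linear_combination h
        exact alg2 h2P h1 hD1 hD2
      rw [this]
      exact hng
    · exact alg3 hp1'
  -- `z3 = z2 - b`
  have hf3 : f (z2 + algebraMap k L (-b)) = 1 := hline z2 hgood2 hf2 (-b)
  set N2 := (P ^ 2 + E * P + A) / (z1 + P + E) with hN2
  have hN2' : N2 ≠ 0 := div_ne_zero hnuP hD2
  have hz3 : z2 + algebraMap k L (-b) = (P - B) - N2 := by
    rw [hz2', map_neg]
    ring
  rw [hz3] at hf3
  -- `z4`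
  have hden4 : (P - B) - N2 + algebraMap k L (-(p - b) - e) + E ≠ 0 := by
    have : (P - B) - N2 + algebraMap k L (-(p - b) - e) + E = -N2 := by
      rw [map_sub, map_neg, map_sub]
      ring
    rw [this]
    exact neg_ne_zero.mpr hN2'
  have hf4 := hrot _ (-(p - b) - e) hden4 hf3
  have hqe : algebraMap k L (-(p - b) - e) = -(P - B) - E := by
    rw [map_sub, map_neg, map_sub]
  rw [hqe, rot_inv_eq hN2'] at hf4
  set N5 := ((P - B) ^ 2 + E * (P - B) + A) / (z + P + E) with hN5
  have hN5' : N5 ≠ 0 := div_ne_zero hnuq hD1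
  set y : k := 2 * (p - b) + e - (2 * p + e) * ((p - b) ^ 2 + e * (p - b) + a) /
    (p ^ 2 + e * p + a) with hy
  have hy' : algebraMap k L y = 2 * (P - B) + E - (2 * P + E) *
      ((P - B) ^ 2 + E * (P - B) + A) / (P ^ 2 + E * P + A) := by
    rw [hy]
    simp only [map_sub, map_add, map_mul, map_div₀, map_pow, map_ofNat]
    rfl
  have hz4 : ((P - B) ^ 2 + E * (P - B) + A) / N2 - (P - B + E) =
      ((P - B) - N5) + algebraMap k L (-y) := by
    rw [map_neg, hy', hN2, hN5, hz1']
    exact alg4 hD1 hnuP
  rw [hz4] at hf4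
  -- `z5` is good
  have hgood5 : Good e a ((P - B) - N5) := by
    by_contra hng
    apply hp3
    show ¬ Good e a _
    have : ((z + B) * algebraMap k L (p - b) - A) / (z + B + algebraMap k L (p - b) + E) =
        (P - B) - N5 := by
      have h1 : z + B + algebraMap k L (p - b) + E = z + P + E := by
        rw [map_sub]
        ring
      have h2 : z + B + (P - B) + E ≠ 0 := by
        intro h
        apply hD1
        linear_combination h
      rw [map_sub, rot_eq h2, hN5]
      congr 2
      ring
    rw [this]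
    exact hng
  have hgood4 : Good e a ((P - B) - N5 + algebraMap k L (-y)) := good_add hgood5 _
  have hf5 := hline _ hgood4 hf4 y
  have hz5 : (P - B) - N5 + algebraMap k L (-y) + algebraMap k L y = (P - B) - N5 := by
    rw [map_neg]
    ring
  rw [hz5] at hf5
  have hden6 : (P - B) - N5 + algebraMap k L (-(p - b) - e) + E ≠ 0 := by
    have : (P - B) - N5 + algebraMap k L (-(p - b) - e) + E = -N5 := by
      rw [map_sub, map_neg, map_sub]
      ring
    rw [this]
    exact neg_ne_zero.mpr hN5'
  have hf6 := hrot _ (-(p - b) - e) hden6 hf5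
  rw [hqe, rot_inv_eq hN5'] at hf6
  have hz6 : ((P - B) ^ 2 + E * (P - B) + A) / N5 - (P - B + E) = z + B := by
    rw [hN5]
    exact alg5 hD1 hnuq
  rwa [hz6] at hf6

end Path

end Vale.Agent.P011.H158
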