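import Vale.Agent.P011.H21.MobInst
import Vale.Agent.P011.H73.LineAbs
import Vale.Agent.P011.H152.OMFinal
import Vale.Agent.P011.H158.Good

/-!
# The line theorem in an anisotropic ring, every characteristic

`A` is a `K`-algebra with anisotropic involution, `w` in `K` with `w* ≠ w`, `E` a field with
involution over `K` with an embedding `φ` into `A` (compatible with the involutions), `k` a field
over which `E` is an algebra, `L'` an intermediate field of `E / k` consisting of symmetric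
elements and containing `w + w*` and `w w*`, `σ` in `L'`. `c` is a homomorphism from the unitary
group to a finite group `Q`, `P` a normal subgroup of `Q`.

* `HasMean c P w φ hA hw hφ k τ`: there is an invariant mean on the unitary group for which the
  laws of the pairs `(c (t x), c (T_b (t x)))`, `t = cay τ`, and of the same pairs for `t⁻¹` are
  invariant under simultaneous conjugation by `P`.
* `line_of_mixing`: the line theorem when the one-step mixing (P3) is known.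
* `mixing_gb`, `mixing_gm`: one-step mixing for `2 ≠ 0` and good `σ`.
-/

set_option linter.unusedSectionVars false

namespace Vale.Agent.P011.H158

open Vale.Agent.P011.H21 Vale.Agent.P011.H722 Vale.Agent.P011.H73.Gns
open scoped InnerProductSpace

section

variable {k K A E Q : Type*} [Field k] [Field K] [StarRing K] [Ring A] [StarRing A]
  [Algebra K A] [StarModule K A] [Field E] [StarRing E] [Algebra K E] [StarModule K E]
  [Algebra k E]

/-- The translations by the elements of `L'`. -/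
def Tr (w : K) (φ : E →ₐ[K] A) (L' : IntermediateField k E) : Set (Equiv.Perm (UA A)) :=
  {p | ∃ v ∈ L', p = TE w φ v}

variable {L' : IntermediateField k E} {w : K}


theorem nu_mem (h1 : s1 E w ∈ L') (h2 : aw E w * aw E (star w) ∈ L') {x : E} (hx : x ∈ L') :
    nu w x ∈ L' := by
  have : nu w x = x * x + s1 E w * x + aw E w * aw E (star w) := by
    rw [nu, s1]
    ring
  rw [this]
  exact L'.add_mem (L'.add_mem (L'.mul_mem hx hx) (L'.mul_mem h1 hx)) h2

theorem sc_mem (h1 : s1 E w ∈ L') (h2 : aw E w * aw E (star w) ∈ L') {x b : E} (hx : x ∈ L')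
    (hb : b ∈ L') : sc w x b ∈ L' :=
  L'.div_mem (nu_mem h1 h2 (L'.add_mem hx hb)) (nu_mem h1 h2 hx)

theorem vb_mem (h1 : s1 E w ∈ L') (h2 : aw E w * aw E (star w) ∈ L') {x b : E} (hx : x ∈ L')
    (hb : b ∈ L') : vb w x b ∈ L' :=
  L'.sub_mem (L'.mul_mem (sc_mem h1 h2 hx hb) (L'.add_mem hx h1))
    (L'.add_mem (L'.add_mem hx hb) h1)

theorem vm_mem (h1 : s1 E w ∈ L') (h2 : aw E w * aw E (star w) ∈ L') {x b : E} (hx : x ∈ L')
    (hb : b ∈ L') : vm w x b ∈ L' :=
  L'.sub_mem (L'.add_mem hx hb) (L'.mul_mem (sc_mem h1 h2 hx hb) hx)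

theorem star_te {x : E} (hx : star x = x) : star (te w x) = (te w x)⁻¹ := by
  rw [te, star_div₀, star_add, star_add, star_aw, star_aw, star_star, hx, inv_div]

theorem WE_star_te_div (hA : AnisR A) (hw : star w ≠ w) {φ : E →ₐ[K] A}
    (hφ : ∀ x, φ (star x) = star (φ x)) {x y v : E} (hx : star x = x) (hy : star y = y)
    (hv : star v = v) :
    WE w φ (te w x / te w y) * TE w φ v = TE w φ v * WE w φ (te w x / te w y) := by
  have hne : te w x / te w y ≠ 0 := div_ne_zero (te_ne hw hx) (te_ne hw hy)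
  rw [WE_TE hA hw hφ hne hv, star_div₀, star_te hx, star_te hy]
  have h1 := te_ne hw hx
  have h2 := te_ne hw hy
  have : te w x / te w y * ((te w x)⁻¹ / (te w y)⁻¹) * v = v := by
    field_simp
  rw [this]

variable [Group Q]

/-- The input of the line theorem at the base point `τ`. -/
def HasMean (c : UA A →* Q) (P : Subgroup Q) (w : K) (φ : E →ₐ[K] A) (hA : AnisR A)
    (hw : star w ≠ w) (hφ : ∀ x, φ (star x) = star (φ x)) (k : Type*) [Field k] [Algebra k E]
    (τ : E) : Prop :=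
  ∃ l : (UA A → ℝ) → ℝ, IsMean l ∧
    (∀ π ∈ PE w φ hA hw hφ, ∀ F : UA A → ℝ, Bdd F → l (fun x => F (π x)) = l F) ∧
    (∀ b : k, ∀ ρ ∈ P, ∀ a a' : Q,
      mset l {x | c (cE w φ τ * x) = ρ * a * ρ⁻¹ ∧
        c (TE w φ (algebraMap k E b) (cE w φ τ * x)) = ρ * a' * ρ⁻¹}
      = mset l {x | c (cE w φ τ * x) = a ∧
        c (TE w φ (algebraMap k E b) (cE w φ τ * x)) = a'}) ∧
    (∀ b : k, ∀ ρ ∈ P, ∀ a a' : Q,
      mset l {x | c ((cE w φ τ)⁻¹ * x) = ρ * a * ρ⁻¹ ∧
        c (TE w φ (algebraMap k E b) ((cE w φ τ)⁻¹ * x)) = ρ * a' * ρ⁻¹}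
      = mset l {x | c ((cE w φ τ)⁻¹ * x) = a ∧
        c (TE w φ (algebraMap k E b) ((cE w φ τ)⁻¹ * x)) = a'})

/-- **The line theorem, one-step mixing given.** -/
theorem line_of_mixing [Fintype Q] (hA : AnisR A) (hw : star w ≠ w) {φ : E →ₐ[K] A}
    (hφ : ∀ x, φ (star x) = star (φ x)) {c : UA A →* Q} {P : Subgroup Q} (hP : P.Normal)
    (hP2 : ∀ (r s : Q) (D : Q → Q → ℝ), Commute r s → PairLaw P r s D → (r = 1 ↔ s = 1))
    (hcen : ∀ (b : k) (x : A), φ (algebraMap k E b) * x = x * φ (algebraMap k E b))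
    (hL : ∀ x ∈ L', star x = x) (h1 : s1 E w ∈ L') (h2 : aw E w * aw E (star w) ∈ L')
    {σ : E} (hσ : σ ∈ L') {mk : (k → ℝ) → ℝ} (hmk : IsMean mk)
    (hinv : ∀ (b : k) (F : k → ℝ), mk (fun x => F (x + b)) = mk F)
    (hmean : ∀ b₀ : k, HasMean c P w φ hA hw hφ k (σ + algebraMap k E b₀))
    (hmix : ∀ (b₀ : k) (m : Mean (UA A)) (g' : k → m.Pres), (∀ τ ∈ Tr w φ L', τ ∈ m.Pres) →
      (∀ b, (g' b).1 = gb w φ (σ + algebraMap k E b₀) (algebraMap k E b)) →
      Mixing m mk (Tr w φ L') g')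
    (hmixm : ∀ (b₀ : k) (m : Mean (UA A)) (g' : k → m.Pres), (∀ τ ∈ Tr w φ L', τ ∈ m.Pres) →
      (∀ b, (g' b).1 = gm w φ (σ + algebraMap k E b₀) (algebraMap k E b)) →
      Mixing m mk (Tr w φ L') g')
    (h0 : c (cE w φ σ) = 1) (b : k) : c (cE w φ (σ + algebraMap k E b)) = 1 := by
  have hk : ∀ b : k, algebraMap k E b ∈ L' := fun b => L'.algebraMap_mem b
  have hks : ∀ b : k, star (algebraMap k E b) = algebraMap k E b := fun b => hL _ (hk b)
  have hσb : ∀ b : k, σ + algebraMap k E b ∈ L' := fun b => L'.add_mem hσ (hk b)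
  have hσs : ∀ b : k, star (σ + algebraMap k E b) = σ + algebraMap k E b := fun b => hL _ (hσb b)
  have hadd : ∀ b₀ b : k, σ + algebraMap k E (b₀ + b) =
      σ + algebraMap k E b₀ + algebraMap k E b := fun b₀ b => by rw [map_add]; ring
  have h00 : c (cE w φ (σ + algebraMap k E 0)) = 1 := by rw [map_zero, add_zero]; exact h0
  refine line_perm (X := UA A) (k := k) hP hP2 (col := c)
    (f := fun b => c (cE w φ (σ + algebraMap k E b))) ?_ hmk hinv (PE := PE w φ hA hw hφ)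
    (S := Tr w φ L') ?_
    (Lt := fun b => Lm (cE w φ (σ + algebraMap k E b)))
    (Tk := fun b => TE w φ (algebraMap k E b)) ?_ ?_
    (g := fun b₀ b => gb w φ (σ + algebraMap k E b₀) (algebraMap k E b))
    (gm := fun b₀ b => gm w φ (σ + algebraMap k E b₀) (algebraMap k E b))
    (Wk := fun b₀ b => WE w φ (kap w (σ + algebraMap k E b₀) (algebraMap k E b)))
    (wt := fun b₀ b => WE w φ (te w (σ + algebraMap k E (b₀ + b)) /
      te w (σ + algebraMap k E b₀))) ?_ ?_ ?_ ?_ ?_ ?_ ?_ ?_ ?_ ?_ hmix hmixm h00 b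
  · exact fun b b' => colour_cE_commute c hA hw hφ (hσs b) (hσs b')
  · rintro τ ⟨v, hv, rfl⟩
    exact TE_mem_PE hA hw hφ (hL v hv)
  · intro b x
    rw [Lm_apply, map_mul]
  · intro b x
    exact colour_commute c hA hw (star_phi hφ (hks b)) x (hcen b _).symm
  · exact fun b₀ b => WE_mem_PE hA hw hφ (kap_ne hw (hσs b₀) (hks b))
  · exact fun b₀ b => WE_mem_PE hA hw hφ
      (div_ne_zero (te_ne hw (hσs (b₀ + b))) (te_ne hw (hσs b₀)))
  · exact fun b₀ b => ⟨_, ⟨_, vb_mem h1 h2 (hσb b₀) (hk b), rfl⟩, rfl⟩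
  · intro b₀ b
    refine ⟨_, ⟨_, vm_mem h1 h2 (hσb b₀) (hk b), rfl⟩, ?_⟩
    show TE w φ _ * WE w φ (star (kap w _ _)) = _
    rw [mul_assoc]
    congr 1
    rw [hadd, ← te_div hw (hσs b₀) (hks b), mul_comm (kap w _ _), ← WE_mul hA hw]
    · refine div_ne_zero (te_ne hw ?_) (te_ne hw (hσs b₀))
      rw [← hadd]
      exact hσs _
    · exact kap_ne hw (hσs b₀) (hks b)
  · intro b₀ b
    show _ = Lm (cE w φ (σ + algebraMap k E (b₀ + b))) * _
    rw [hadd]
    exact T_L_eq hA hw hφ (hσs b₀) (hks b)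
  · intro b₀ b
    show TE w φ (algebraMap k E (-b)) * _ = (Lm (cE w φ (σ + algebraMap k E (b₀ + b))))⁻¹ * _
    rw [hadd, map_neg, ← Lm_inv, ← Lm_inv]
    exact T_L_neg_eq hA hw hφ (hσs b₀) (hks b)
  · rintro b₀ b τ ⟨v, hv, rfl⟩
    refine ⟨v, hv, ?_⟩
    rw [WE_star_te_div hA hw hφ (hσs _) (hσs _) (hL v hv), mul_inv_cancel_right]
  · rintro b₀ b τ ⟨v, hv, rfl⟩
    refine ⟨v, hv, ?_⟩
    rw [mul_assoc, ← WE_star_te_div hA hw hφ (hσs _) (hσs _) (hL v hv), inv_mul_cancel_left]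
  · intro b₀ b x
    have hne1 := te_ne hw (hσs (b₀ + b))
    have hne2 := te_ne hw (hσs b₀)
    show c (WE w φ _ x) = _
    rw [div_eq_mul_inv, WE_mul hA hw φ hne1 (inv_ne_zero hne2), Equiv.Perm.mul_apply,
      WE_te hA hw hφ (hσs (b₀ + b))]
    have h3 : WE w φ (te w (σ + algebraMap k E b₀))⁻¹ x =
        (cE w φ (σ + algebraMap k E b₀))⁻¹ * x * cE w φ (σ + algebraMap k E b₀) := by
      rw [WE_inv hA hw φ hne2, Equiv.Perm.inv_eq_iff_eq, WE_te hA hw hφ (hσs b₀)]
      group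
    rw [h3]
    simp only [map_mul, map_inv]
    group
  · intro b₀
    obtain ⟨l, hl, hl1, hl2, hl3⟩ := hmean b₀
    refine ⟨l, hl, hl1, hl2, fun b ρ hρ a a' => ?_⟩
    have h3 := hl3 b ρ hρ a a'
    have h4 : ∀ x, (Lm (cE w φ (σ + algebraMap k E b₀)))⁻¹ x =
        (cE w φ (σ + algebraMap k E b₀))⁻¹ * x := by
      intro x
      rw [← Lm_inv, Lm_apply]
    simp only [h4]
    exact h3

end

end Vale.Agent.P011.H158
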