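import Vale.Agent.P011.H158.LineMix
import Vale.Agent.P011.H966.NE
import Vale.Agent.P011.H73.GrpLaw

/-!
# The line theorem for all symmetric elements of a field

`E` a field with involution over `K`, finite and separable over the infinite field `k`, embedded in
the anisotropic ring `A`; `L₁` an intermediate field of `E / k` of symmetric elements. The only
analytic hypothesis is `NE` (helper966) at the Cayley transforms of the elements of `L₁`.
-/

set_option linter.unusedSectionVars false

namespace Vale.Agent.P011.H158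

open Vale.Agent.P011.H21 Vale.Agent.P011.H722 Vale.Agent.P011.H73.Gns Vale.Agent.P011.H983
open scoped InnerProductSpace

section Good

variable {k L M : Type*} [Field k] [Field L] [Field M] [Algebra k L] [Algebra k M]

/-- Goodness passes to subfields. -/
theorem Good.of_algHom {e a : k} (i : L →ₐ[k] M) [Algebra.IsAlgebraic k M] {z : L}
    (h : Good e a (i z)) : Good e a z := by
  have key : ∀ σ : L →ₐ[k] AlgebraicClosure k, ∃ s : M →ₐ[k] AlgebraicClosure k,
      s (i z) = σ z := by
    intro σ
    let _ : Algebra L M := i.toRingHom.toAlgebra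
    have _ : IsScalarTower k L M := IsScalarTower.of_algebraMap_eq fun x => (i.commutes x).symm
    let _ : Algebra L (AlgebraicClosure k) := σ.toRingHom.toAlgebra
    have _ : IsScalarTower k L (AlgebraicClosure k) :=
      IsScalarTower.of_algebraMap_eq fun x => (σ.commutes x).symm
    have _ : Algebra.IsAlgebraic L M := Algebra.IsAlgebraic.tower_top (K := k) L
    let s : M →ₐ[L] AlgebraicClosure k := IsAlgClosed.lift
    exact ⟨s.restrictScalars k, s.commutes z⟩
  intro σ τ
  obtain ⟨s, hs⟩ := key σ
  obtain ⟨t, ht⟩ := key τ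
  rw [← hs, ← ht]
  exact h s t

end Good

section Adjoin

variable {k E : Type*} [Field k] [Field E] [Algebra k E]

theorem adjoin_gen_eq_top (z : E) (z' : IntermediateField.adjoin k {z}) (hz : (z' : E) = z) :
    IntermediateField.adjoin k {z'} = ⊤ := by
  rw [eq_top_iff]
  rintro x -
  have h1 : (IntermediateField.adjoin k {z'}).map (IntermediateField.adjoin k {z}).val =
      IntermediateField.adjoin k {z} := by
    rw [IntermediateField.adjoin_map, Set.image_singleton]
    congr 2
  have h2 : (x : E) ∈ (IntermediateField.adjoin k {z'}).map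
      (IntermediateField.adjoin k {z}).val := by
    rw [h1]
    exact x.2
  obtain ⟨y, hy, hyx⟩ := h2
  have : y = x := Subtype.ext hyx
  rwa [← this]

end Adjoin

section

variable {k K A E : Type*} [Field k] [Infinite k] [Field K] [StarRing K] [Ring A] [StarRing A]
  [Algebra K A] [StarModule K A] [Field E] [StarRing E] [Algebra K E] [StarModule K E]
  [Algebra k E] {w : K}

theorem PE_solvable (hA : AnisR A) (hw : star w ≠ w) {φ : E →ₐ[K] A}
    (hφ : ∀ x, φ (star x) = star (φ x)) : Group.IsSolvable (PE w φ hA hw hφ) := by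
  refine isSolvable_of_comm (TLP hA hw hφ) (fun a ha b hb => TLP_comm hA hw hφ ha hb) ?_
  intro g h
  exact TLP_commutator hA hw hφ g h

/-- The words over the base point `u`. -/
def HS (w : K) (φ : E →ₐ[K] A) (hA : AnisR A) (hw : star w ≠ w)
    (hφ : ∀ x, φ (star x) = star (φ x)) (u : UA A) : Set (Equiv.Perm (UA A)) :=
  {h | ∃ π ∈ PE w φ hA hw hφ, h = Lm u * π ∨ h = (Lm u)⁻¹ * π}

theorem hasMean_of_NE {Q : Type*} [Group Q] {c : UA A →* Q} {P : Subgroup Q} (hA : AnisR A)
    (hw : star w ≠ w) {φ : E →ₐ[K] A} (hφ : ∀ x, φ (star x) = star (φ x)) {τ : E}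
    (h : H966.NE c P (HS w φ hA hw hφ (cE w φ τ)) (fun b : k => TE w φ (algebraMap k E b))) :
    HasMean c P w φ hA hw hφ k τ := by
  have := PE_solvable hA hw hφ
  obtain ⟨l, hl, h1, h2, h3⟩ := H966.hmean_of_NE (PE w φ hA hw hφ) (Lm (cE w φ τ)) h
  refine ⟨l, hl, h1, h2, fun b ρ hρ a a' => ?_⟩
  have h4 : ∀ x, (Lm (cE w φ τ))⁻¹ x = (cE w φ τ)⁻¹ * x := by
    intro x
    rw [← Lm_inv, Lm_apply]
  have h5 := h3 b ρ hρ a a'
  simp only [h4] at h5
  exact h5

/-- The Cayley transform is multiplicative in the torus coordinate. -/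
theorem cE_mul (hA : AnisR A) (hw : star w ≠ w) {φ : E →ₐ[K] A}
    (hφ : ∀ x, φ (star x) = star (φ x)) {x y : E} (hx : star x = x) (hy : star y = y)
    (hxy : x + y + s1 E w ≠ 0) :
    cE w φ x * cE w φ y = cE w φ ((x * y - aw E w * aw E (star w)) / (x + y + s1 E w)) := by
  have hz : star ((x * y - aw E w * aw E (star w)) / (x + y + s1 E w)) =
      (x * y - aw E w * aw E (star w)) / (x + y + s1 E w) := by
    rw [star_div₀, star_sub, star_mul, star_mul, star_add, star_add, star_s1, star_aw, star_aw,
      star_star, hx, hy, mul_comm y x]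
  apply UA_ext
  rw [Subgroup.coe_mul, Units.val_mul, cE_coe hA hw hφ hx, cE_coe hA hw hφ hy,
    cE_coe hA hw hφ hz, ← map_mul]
  congr 1
  have h1 := add_aw_star_ne (E := E) hw hx
  have h2 := add_aw_star_ne (E := E) hw hy
  have h3 := add_aw_star_ne (E := E) hw hz
  rw [te, te, te, div_mul_div_comm, div_eq_div_iff (mul_ne_zero h1 h2) h3]
  apply mul_right_cancel₀ hxy
  have h4 : (x * y - aw E w * aw E (star w)) / (x + y + s1 E w) * (x + y + s1 E w) =
      x * y - aw E w * aw E (star w) := div_mul_cancel₀ _ hxy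
  generalize (x * y - aw E w * aw E (star w)) / (x + y + s1 E w) = t at h4 ⊢
  rw [s1] at h4 ⊢
  linear_combination ((x + aw E w) * (y + aw E w) -
    (x + aw E (star w)) * (y + aw E (star w))) * h4

/-- **The line theorem for all elements of `L₁`, every characteristic.** -/
theorem line_all {Q : Type*} [Group Q] [Fintype Q] [FiniteDimensional k E]
    [Algebra.IsSeparable k E] (hA : AnisR A)
    (hw : star w ≠ w) {φ : E →ₐ[K] A}
    (hφ : ∀ x, φ (star x) = star (φ x)) {c : UA A →* Q} {P : Subgroup Q} (hP : P.Normal)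
    (hmin : ∀ N : Subgroup Q, N.Normal → N ≤ P → N = ⊥ ∨ N = P)
    (hC : Subgroup.centralizer (P : Set Q) = ⊥)
    (hcen : ∀ (b : k) (x : A), φ (algebraMap k E b) * x = x * φ (algebraMap k E b))
    (L₁ : IntermediateField k E) (hL : ∀ x ∈ L₁, star x = x) {e a : k} (chr : CharOK k e)
    (he : s1 E w = algebraMap k E e) (ha : aw E w * aw E (star w) = algebraMap k E a)
    (hbase : ∀ b : k, c (cE w φ (algebraMap k E b)) = 1)
    (hNE : ∀ τ ∈ L₁, H966.NE c P (HS w φ hA hw hφ (cE w φ τ))
      (fun b : k => TE w φ (algebraMap k E b)))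
    {τ : E} (hτ : τ ∈ L₁) (h0 : c (cE w φ τ) = 1) (b : k) :
    c (cE w φ (τ + algebraMap k E b)) = 1 := by
  have hk : ∀ b : k, algebraMap k E b ∈ L₁ := fun b => L₁.algebraMap_mem b
  have hD : e ^ 2 - 4 * a ≠ 0 := by
    intro h
    apply aw_ne (E := E) hw
    have h1 : (aw E w - aw E (star w)) ^ 2 = 0 := by
      have h2 : algebraMap k E (e ^ 2 - 4 * a) = 0 := by rw [h, map_zero]
      rw [map_sub, map_pow, map_mul, map_ofNat, ← he, ← ha, s1] at h2
      linear_combination h2
    exact (sub_eq_zero.mp (pow_eq_zero_iff two_ne_zero |>.mp h1)).symm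
  have hnu : ∀ z : L₁, z ^ 2 + algebraMap k L₁ e * z + algebraMap k L₁ a ≠ 0 := by
    intro z h
    apply nu_ne hw (hL z z.2)
    have h1 := congrArg (fun x : L₁ => (x : E)) h
    have h2 : (z : E) ^ 2 + algebraMap k E e * z + algebraMap k E a = 0 := h1
    rw [nu, ← h2, ← he, ← ha, s1]
    ring
  have key := translate_of_good (k := k) (L := L₁) (e := e) (a := a) hD hnu
    (f := fun z => c (cE w φ (z : E))) ?_ hbase ?_ ⟨τ, hτ⟩ h0 b
  · exact key
  · intro x y hxy
    have hxy' : (x : E) + y + s1 E w ≠ 0 := by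
      rw [he]
      intro h
      apply hxy
      exact Subtype.ext h
    rw [← map_mul, cE_mul hA hw hφ (hL x x.2) (hL y y.2) hxy', he, ha]
    rfl
  · intro z hz h1 b
    by_cases hzk : ∃ b : k, (z : E) = algebraMap k E b
    · obtain ⟨b', hb'⟩ := hzk
      show c (cE w φ ((z : E) + algebraMap k E b)) = 1
      rw [hb', ← map_add]
      exact hbase _
    push Not at hzk
    -- the field generated by `z`
    have hle : IntermediateField.adjoin k {(z : E)} ≤ L₁ := by
      rw [IntermediateField.adjoin_simple_le_iff]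
      exact z.2
    have hmem : (z : E) ∈ IntermediateField.adjoin k {(z : E)} :=
      IntermediateField.mem_adjoin_simple_self k _
    let z' : IntermediateField.adjoin k {(z : E)} := ⟨z, hmem⟩
    have hgood : Good e a z' := by
      refine Good.of_algHom (IntermediateField.inclusion hle) ?_
      exact hz
    have hgen := adjoin_gen_eq_top (k := k) (z : E) z' rfl
    refine line_of_span hA hw hφ hP
      (fun r s D _ h => H73.Grp.pairLaw_iff hP hmin hC r s D h) hcen
      (L' := IntermediateField.adjoin k {(z : E)}) (fun x hx => hL x (hle hx)) chr he ha z' hzk ?_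
      ?_ h1 b
    · refine ⟨2 * Module.finrank k (IntermediateField.adjoin k {(z : E)}), fun B hB => ?_⟩
      refine span_inv_eq_top hgen ?_ hgood B (by omega)
      intro c' h
      apply nu_ne hw (hL _ (L₁.add_mem z.2 (hk c')))
      have h1 := congrArg (fun x : IntermediateField.adjoin k {(z : E)} => (x : E)) h
      have h2 : ((z : E) + algebraMap k E c') ^ 2 + algebraMap k E e * (z + algebraMap k E c') +
        algebraMap k E a = 0 := h1
      rw [nu, ← h2, ← he, ← ha, s1]
      ring
    · intro b₀
      exact hasMean_of_NE hA hw hφ (hNE _ (L₁.add_mem z.2 (hk b₀)))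

end

end Vale.Agent.P011.H158
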