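import Vale.Agent.P011.H158.LineA
import Vale.Agent.P011.H983.LineOmN

/-!
# One-step mixing in the Hilbert space of a mean, every characteristic

The two one-step families `gb`, `gm` satisfy the hypotheses of helper983's `DatNP.mixing` as soon
as the elements `1 / ν (σ + c)` span `L'`.
-/

set_option linter.unusedSectionVars false

namespace Vale.Agent.P011.H158

open Vale.Agent.P011.H21 Vale.Agent.P011.H722 Vale.Agent.P011.H73.Gns Vale.Agent.P011.H983
open scoped InnerProductSpace

section

variable {k K A E : Type*} [Field k] [Infinite k] [Field K] [StarRing K] [Ring A] [StarRing A]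
  [Algebra K A] [StarModule K A] [Field E] [StarRing E] [Algebra K E] [StarModule K E]
  [Algebra k E] {L' : IntermediateField k E} {w : K}

/-- Mixing of a family of one-step maps with the two commutation relations. -/
theorem mixing_family (hA : AnisR A) (hw : star w ≠ w) {φ : E →ₐ[K] A}
    (hφ : ∀ x, φ (star x) = star (φ x)) (hL : ∀ x ∈ L', star x = x) {e a : k}
    (chr : CharOK k e)
    (he : s1 E w = algebraMap k E e) (ha : aw E w * aw E (star w) = algebraMap k E a)
    (z : L') (hz : ∀ b : k, (z : E) ≠ algebraMap k E b)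
    (hspan : ∃ N0 : ℕ, ∀ B : Finset k, N0 ≤ B.card →
      Submodule.span k ((fun c : k => ((z + algebraMap k L' c) ^ 2 +
        algebraMap k L' e * (z + algebraMap k L' c) + algebraMap k L' a)⁻¹) '' (B : Set k)) = ⊤)
    {mk : (k → ℝ) → ℝ} (hmk : IsMean mk)
    (hinv : ∀ (b : k) (F : k → ℝ), mk (fun x => F (x + b)) = mk F) (b₀ : k)
    (m : Mean (UA A)) (g' : k → m.Pres) (hS : ∀ τ ∈ Tr w φ L', τ ∈ m.Pres)
    (ε : k) (hε : ε ≠ 0) (G : k → Equiv.Perm (UA A)) (hg' : ∀ b, (g' b).1 = G b)
    (h1 : ∀ (b : k) (l : E), l ∈ L' → G b * TE w φ l =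
      TE w φ (sc w (z + algebraMap k E b₀) (algebraMap k E b) * l) * G b)
    (h2 : ∀ b c : k, G c * G b = TE w φ (algebraMap k E (ε * (c * b * (b - c))) /
      nu w (z + algebraMap k E b₀)) * G b * G c) :
    Mixing m mk (Tr w φ L') g' := by
  classical
  set σ' : L' := z + algebraMap k L' b₀ with hσ'
  have hxx : ∀ b : k, xn σ' e a b = (z + algebraMap k L' (b₀ + b)) ^ 2 +
      algebraMap k L' e * (z + algebraMap k L' (b₀ + b)) + algebraMap k L' a := by
    intro b
    rw [xn, hσ', map_add, add_assoc z]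
  have hxE : ∀ b : k, ((xn σ' e a b : L') : E) =
      nu w (z + algebraMap k E b₀ + algebraMap k E b) := by
    intro b
    rw [hxx]
    have h3 : nu w (z + algebraMap k E b₀ + algebraMap k E b) =
        (z + algebraMap k E (b₀ + b)) ^ 2 + algebraMap k E e * (z + algebraMap k E (b₀ + b)) +
          algebraMap k E a := by
      rw [nu, ← he, ← ha, s1, map_add]
      ring
    rw [h3]
    rfl
  have hx0 : ((xn σ' e a 0 : L') : E) = nu w (z + algebraMap k E b₀) := by
    rw [hxE, map_zero, add_zero]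
  have hmem : ∀ b : k, (z : E) + algebraMap k E b ∈ L' := fun b =>
    L'.add_mem z.2 (L'.algebraMap_mem b)
  let T : L' → Equiv.Perm (UA A) := fun l => TE w φ l
  have hTr : Tr w φ L' = Set.range T := by
    ext τ
    constructor
    · rintro ⟨v, hv, rfl⟩
      exact ⟨⟨v, hv⟩, rfl⟩
    · rintro ⟨v, rfl⟩
      exact ⟨v, v.2, rfl⟩
  rw [hTr] at hS ⊢
  refine DatNP.mixing (σ := σ') (e₁ := e) (a := a) (e := ε) (T := T) (g := G) ?_ hmk hinv m g' hS
    hg'
  constructor
  · exact chr
  · obtain ⟨N0, hN0⟩ := hspan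
    refine ⟨N0, fun B hB => ?_⟩
    have h3 := hN0 (B.map (addLeftEmbedding b₀)) (by rwa [Finset.card_map])
    rw [← h3]
    congr 1
    rw [Finset.coe_map, Set.image_image]
    refine Set.image_congr fun b _ => ?_
    rw [hxx]
    rfl
  · exact hε
  · intro b hb
    have h3 := hxE b
    rw [hb] at h3
    refine nu_ne hw ?_ h3.symm
    rw [add_assoc, ← map_add]
    exact hL _ (hmem _)
  · intro b hb
    apply hz (b - b₀)
    have h3 := congrArg (fun x : L' => (x : E)) hb
    have h4 : (z : E) + algebraMap k E b₀ = algebraMap k E b := h3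
    rw [map_sub, ← h4]
    ring
  · intro x y
    exact TE_add hA hw hφ (hL x x.2) (hL y y.2)
  · intro b l
    have h4 := h1 b l l.2
    have h5 : ((xn σ' e a b / xn σ' e a 0 * l : L') : E) =
        sc w (z + algebraMap k E b₀) (algebraMap k E b) * l := by
      rw [sc, ← hxE, ← hx0]
      rfl
    show G b * TE w φ l = TE w φ _ * G b
    rw [h5]
    exact h4
  · intro b c
    have h5 : ((algebraMap k L' (ε * (c * b * (b - c))) / xn σ' e a 0 : L') : E) =
        algebraMap k E (ε * (c * b * (b - c))) / nu w (z + algebraMap k E b₀) := by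
      rw [← hx0]
      rfl
    show G c * G b = TE w φ _ * (G b * G c)
    rw [h5, ← mul_assoc]
    exact h2 b c

/-- **The line theorem under the span condition.** -/
theorem line_of_span {Q : Type*} [Group Q] [Fintype Q] (hA : AnisR A)
    (hw : star w ≠ w) {φ : E →ₐ[K] A}
    (hφ : ∀ x, φ (star x) = star (φ x)) {c : UA A →* Q} {P : Subgroup Q} (hP : P.Normal)
    (hP2 : ∀ (r s : Q) (D : Q → Q → ℝ), Commute r s → PairLaw P r s D → (r = 1 ↔ s = 1))
    (hcen : ∀ (b : k) (x : A), φ (algebraMap k E b) * x = x * φ (algebraMap k E b))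
    (hL : ∀ x ∈ L', star x = x) {e a : k} (chr : CharOK k e)
    (he : s1 E w = algebraMap k E e) (ha : aw E w * aw E (star w) = algebraMap k E a)
    (z : L') (hz : ∀ b : k, (z : E) ≠ algebraMap k E b)
    (hspan : ∃ N0 : ℕ, ∀ B : Finset k, N0 ≤ B.card →
      Submodule.span k ((fun c : k => ((z + algebraMap k L' c) ^ 2 +
        algebraMap k L' e * (z + algebraMap k L' c) + algebraMap k L' a)⁻¹) '' (B : Set k)) = ⊤)
    (hmean : ∀ b₀ : k, HasMean c P w φ hA hw hφ k ((z : E) + algebraMap k E b₀))
    (h0 : c (cE w φ (z : E)) = 1) (b : k) : c (cE w φ ((z : E) + algebraMap k E b)) = 1 := by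
  obtain ⟨mk, hmk, hinv, -⟩ := exists_symm_mean k
  have hk : ∀ b : k, algebraMap k E b ∈ L' := fun b => L'.algebraMap_mem b
  have hks : ∀ b : k, star (algebraMap k E b) = algebraMap k E b := fun b => hL _ (hk b)
  have hzs : ∀ b : k, star ((z : E) + algebraMap k E b) = z + algebraMap k E b :=
    fun b => hL _ (L'.add_mem z.2 (hk b))
  refine line_of_mixing hA hw hφ hP hP2 hcen hL (he ▸ hk e) (ha ▸ hk a) z.2 hmk hinv hmean
    ?_ ?_ h0 b
  · intro b₀ m g' hS hg'
    refine mixing_family hA hw hφ hL chr he ha z hz hspan hmk hinv b₀ m g' hS 1 one_ne_zero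
      _ hg' ?_ ?_
    · intro b l hl
      exact gb_TE hA hw hφ (hzs b₀) (hks b) (hL l hl)
    · intro b c
      rw [gb_conj hA hw hφ (hzs b₀) (hks b) (hks c)]
      simp only [map_mul, map_sub, one_mul]
  · intro b₀ m g' hS hg'
    refine mixing_family hA hw hφ hL chr he ha z hz hspan hmk hinv b₀ m g' hS (-1)
      (neg_ne_zero.mpr one_ne_zero) _ hg' ?_ ?_
    · intro b l hl
      exact gm_TE hA hw hφ (hzs b₀) (hks b) (hL l hl)
    · intro b c
      rw [gm_conj hA hw hφ (hzs b₀) (hks b) (hks c)]
      congr 4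
      simp only [map_mul, map_sub, map_neg, map_one]
      ring

end

end Vale.Agent.P011.H158
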