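import Vale.Agent.P011.H158.FieldE

/-!
# The line theorem in the ring

`A` a finite-dimensional `K`-algebra with anisotropic involution, `K / k` a finite separable
extension, `σ₁` a symmetric element of `A` with irreducible separable minimal polynomial over `K`.
`HSA w E u` is the set of the words `L_u T_v W_e`, `L_u⁻¹ T_v W_e` with `v` symmetric in `E` and `e`
in `E`. The only analytic hypothesis of `line_ring` is `NE` for these words, `E = K[σ₁]`.
-/

set_option linter.unusedSectionVars false

namespace Vale.Agent.P011.H158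

open Vale.Agent.P011.H21 Vale.Agent.P011.H722 Vale.Agent.P011.H73.Gns Vale.Agent.P011.H983
open Polynomial

section CF

variable {K A : Type*} [Field K] [StarRing K] [Ring A] [StarRing A] [Algebra K A]
  [StarModule K A] [Nontrivial A]

theorem star_aeval {σ : A} (hσ : star σ = σ) (p : K[X]) :
    star (aeval σ p) = aeval σ (p.map (starRingEnd K)) := by
  induction p using Polynomial.induction_on' with
  | add p q hp hq => rw [map_add, star_add, hp, hq, Polynomial.map_add, map_add]
  | monomial n a =>
    rw [aeval_monomial, map_monomial, aeval_monomial, star_mul, star_pow, hσ]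
    have h1 : star (algebraMap K A a) = algebraMap K A (starRingEnd K a) := by
      rw [Algebra.algebraMap_eq_smul_one, star_smul, star_one, ← Algebra.algebraMap_eq_smul_one]
      rfl
    rw [h1, Algebra.commutes]

/-- The algebra generated by a symmetric element with irreducible minimal polynomial. -/
theorem CF_adjoin {σ : A} (hσ : star σ = σ) (hirr : Irreducible (minpoly K σ)) :
    CF (Algebra.adjoin K {σ}) := by
  have hmem : ∀ x, x ∈ Algebra.adjoin K {σ} ↔ ∃ p : K[X], aeval σ p = x := by
    intro x
    rw [Algebra.adjoin_singleton_eq_range_aeval]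
    rfl
  refine ⟨?_, ?_, ?_, zero_ne_one⟩
  · intro x hx y hy
    obtain ⟨p, rfl⟩ := (hmem x).mp hx
    obtain ⟨q, rfl⟩ := (hmem y).mp hy
    rw [← map_mul, ← map_mul, mul_comm]
  · intro x hx
    obtain ⟨p, rfl⟩ := (hmem x).mp hx
    exact (hmem _).mpr ⟨_, (star_aeval hσ p).symm⟩
  · intro x hx hx0
    obtain ⟨p, rfl⟩ := (hmem x).mp hx
    have hnd : ¬ minpoly K σ ∣ p := by
      rintro ⟨q, rfl⟩
      apply hx0
      rw [map_mul, minpoly.aeval, zero_mul]
    obtain ⟨u, v, huv⟩ := (hirr.coprime_iff_not_dvd.mpr hnd)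
    refine ⟨aeval σ v, (hmem _).mpr ⟨v, rfl⟩, ?_⟩
    rw [← map_mul, mul_comm p v]
    have h1 := congrArg (aeval σ) huv
    rw [map_add, map_mul, minpoly.aeval, mul_zero, zero_add, map_one] at h1
    exact h1

end CF

section

variable {k K A : Type*} [Field k] [Field K] [StarRing K] [Ring A] [StarRing A]
  [Algebra k K] [Algebra k A] [Algebra K A] [IsScalarTower k K A] [StarModule K A] {w : K}

/-- The words over the base point `u` with entries in the subalgebra `E`. -/
def HSA (w : K) (E : Subalgebra K A) (u : UA A) : Set (Equiv.Perm (UA A)) :=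
  {h | ∃ (v : A) (e : Aˣ), v ∈ E ∧ star v = v ∧ (e : A) ∈ E ∧
    (h = Lm u * (T w v * W w e) ∨ h = (Lm u)⁻¹ * (T w v * W w e))}

theorem NE_mono {X k Q : Type*} [Group Q] {c : X → Q} {P : Subgroup Q}
    {HS HS' : Set (Equiv.Perm X)} (hsub : HS ⊆ HS') {Tk : k → Equiv.Perm X}
    (h : H966.NE c P HS' Tk) : H966.NE c P HS Tk :=
  fun n g b ρ a a' hg hρ ε hε => h n g b ρ a a' (fun j => hsub (hg j)) hρ ε hε

theorem star_algebraMap_A (x : K) : star (algebraMap K A x) = algebraMap K A (star x) := by
  rw [Algebra.algebraMap_eq_smul_one, star_smul, star_one, ← Algebra.algebraMap_eq_smul_one]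

variable {E : Subalgebra K A} (hE : CF E)

theorem HS_sub_HSA (hA : AnisR A) (hw : star w ≠ w) (u : UA A) :
    HS w (incl hE) hA hw (incl_star hE) u ⊆ HSA w E u := by
  rintro h ⟨π, ⟨v, e, hv, he, rfl⟩, hh⟩
  refine ⟨incl hE v, uE (incl hE) e, incl_mem hE v, ?_, ?_, hh⟩
  · rw [← incl_star, hv]
  · rw [uE_coe _ he]
    exact incl_mem hE e

/-- The generator. -/
def gen (s : A) (hs : s ∈ E) : FE hE := FE.mk hE s hs

theorem algebraMap_FE (b : k) : algebraMap k (FE hE) b =
    algebraMap K (FE hE) (algebraMap k K b) := rfl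

theorem incl_algebraMap (b : k) : incl hE (algebraMap k (FE hE) b) = algebraMap k A b := by
  rw [algebraMap_FE, AlgHom.commutes, ← IsScalarTower.algebraMap_apply]

theorem star_algebraMap_FE (hk : ∀ b : k, star (algebraMap k K b) = algebraMap k K b) (b : k) :
    star (algebraMap k (FE hE) b) = algebraMap k (FE hE) b := by
  apply incl_injective hE
  rw [incl_star, algebraMap_FE, AlgHom.commutes, star_algebraMap_A, hk]

theorem star_of_mem_adjoin (hk : ∀ b : k, star (algebraMap k K b) = algebraMap k K b)
    {s : FE hE} (hs : star s = s) {x : FE hE} (hx : x ∈ IntermediateField.adjoin k {s}) :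
    star x = x := by
  induction hx using IntermediateField.adjoin_induction with
  | mem x hx => rw [Set.mem_singleton_iff.mp hx, hs]
  | algebraMap x => exact star_algebraMap_FE hE hk x
  | add x y _ _ hx hy => rw [star_add, hx, hy]
  | inv x _ hx => rw [star_inv₀, hx]
  | mul x y _ _ hx hy => rw [star_mul, hx, hy, mul_comm]

/-- The inclusion over the small field. -/
noncomputable def inclk : FE hE →ₐ[k] A := (incl hE).restrictScalars k

theorem exists_mem_adjoin (s : FE hE) {x : A} (hx : x ∈ Algebra.adjoin k {incl hE s}) :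
    ∃ t ∈ IntermediateField.adjoin k {s}, incl hE t = x := by
  rw [Algebra.adjoin_singleton_eq_range_aeval] at hx
  obtain ⟨p, rfl⟩ := hx
  refine ⟨aeval s p, ?_, ?_⟩
  · exact IntermediateField.algebra_adjoin_le_adjoin k _
      (by rw [Algebra.adjoin_singleton_eq_range_aeval]; exact ⟨p, rfl⟩)
  · exact (aeval_algHom_apply (inclk (k := k) hE) s p).symm

theorem isSeparable_FE [FiniteDimensional K A] {s : FE hE}
    (hgen : Algebra.adjoin K {incl hE s} = E) (hsep : (minpoly K (incl hE s)).Separable) :
    Algebra.IsSeparable K (FE hE) := by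
  have h1 : minpoly K (incl hE s) = minpoly K s := minpoly.algHom_eq _ (incl_injective hE) s
  have h2 : IsSeparable K s := by
    rw [IsSeparable, ← h1]
    exact hsep
  have h3 := (IntermediateField.isSeparable_adjoin_simple_iff_isSeparable K (FE hE)).mpr h2
  refine ⟨fun x => IntermediateField.isSeparable_of_mem_isSeparable K (FE hE)
    (L := IntermediateField.adjoin K {s}) ?_⟩
  have h4 : incl hE x ∈ Algebra.adjoin K {incl hE s} := by
    rw [hgen]
    exact incl_mem hE x
  rw [Algebra.adjoin_singleton_eq_range_aeval] at h4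
  obtain ⟨p, hp⟩ := h4
  have h5 : aeval s p = x := by
    apply incl_injective hE
    rw [← hp]
    exact (aeval_algHom_apply (incl hE) s p).symm
  rw [← h5]
  exact IntermediateField.algebra_adjoin_le_adjoin K _
    (by rw [Algebra.adjoin_singleton_eq_range_aeval]; exact ⟨p, rfl⟩)

/-- **The line theorem in the ring, every characteristic**, with `NE` in the letters of the field
`FE hE`, `E = K[σ₁]`. -/
theorem line_ring_FE {Q : Type*} [Group Q] [Fintype Q] [Infinite k] [FiniteDimensional k K]
    [Algebra.IsSeparable k K] [FiniteDimensional K A] [Nontrivial A]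
    (hA : AnisR A) (hw : star w ≠ w)
    (hk : ∀ b : k, star (algebraMap k K b) = algebraMap k K b) {e a : k} (chr : CharOK k e)
    (he : w + star w = algebraMap k K e) (ha : w * star w = algebraMap k K a)
    {c : UA A →* Q} {P : Subgroup Q} (hP : P.Normal)
    (hmin : ∀ N : Subgroup Q, N.Normal → N ≤ P → N = ⊥ ∨ N = P)
    (hC : Subgroup.centralizer (P : Set Q) = ⊥)
    (hbase : ∀ b : k, c (cy w (algebraMap k A b)) = 1)
    {σ₁ : A} (hσ₁ : star σ₁ = σ₁) (hsep : (minpoly K σ₁).Separable)
    (hE : CF (Algebra.adjoin K {σ₁}))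
    (hNE : ∀ u : UA A, ((u : Aˣ) : A) ∈ Algebra.adjoin K {σ₁} →
      H966.NE c P (HS w (incl hE) hA hw (incl_star hE) u) (fun b : k => T w (algebraMap k A b)))
    {σ : A} (hσ : σ ∈ Algebra.adjoin k {σ₁}) (h0 : c (cy w σ) = 1) (b : k) :
    c (cy w (σ + algebraMap k A b)) = 1 := by
  set E := Algebra.adjoin K {σ₁} with hEdef
  have hmem : σ₁ ∈ E := Algebra.self_mem_adjoin_singleton K σ₁
  let s : FE hE := gen hE σ₁ hmem
  have hs : incl hE s = σ₁ := rfl
  have hss : star s = s := by
    apply incl_injective hE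
    rw [incl_star, hs, hσ₁]
  have i1 : Algebra.IsSeparable K (FE hE) := isSeparable_FE hE (s := s) hEdef.symm hsep
  have i2 : Algebra.IsSeparable k (FE hE) := Algebra.IsSeparable.trans k K (FE hE)
  have i3 : FiniteDimensional k (FE hE) := FiniteDimensional.trans k K (FE hE)
  obtain ⟨t, ht, rfl⟩ := exists_mem_adjoin (k := k) hE s hσ
  have hL : ∀ x ∈ IntermediateField.adjoin k {s}, star x = x :=
    fun x hx => star_of_mem_adjoin hE hk hss hx
  have key := line_all (k := k) (φ := incl hE) (c := c) hA hw (incl_star hE) hP hmin hC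
    ?_ (IntermediateField.adjoin k {s}) hL (e := e) (a := a) chr ?_ ?_ ?_ ?_ ht h0 b
  · rw [cE, map_add, incl_algebraMap] at key
    exact key
  · intro b x
    rw [incl_algebraMap]
    exact Algebra.commutes b x
  · rw [s1, aw, aw, ← map_add, he]
    rfl
  · rw [aw, aw, ← map_mul, ha]
    rfl
  · intro b
    rw [cE, incl_algebraMap]
    exact hbase b
  · intro τ hτ
    have h1 := hNE (cE w (incl hE) τ) (by
      rw [cE_coe hA hw (incl_star hE) (hL τ hτ)]
      exact incl_mem hE _)
    have h3 : (fun b : k => TE w (incl hE) (algebraMap k (FE hE) b)) =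
        fun b : k => T w (algebraMap k A b) := by
      funext b
      rw [TE, incl_algebraMap]
    rw [h3]
    exact h1

/-- **The line theorem in the ring, every characteristic**, with `NE` for words in the ring. -/
theorem line_ring {Q : Type*} [Group Q] [Fintype Q] [Infinite k] [FiniteDimensional k K]
    [Algebra.IsSeparable k K] [FiniteDimensional K A] [Nontrivial A]
    (hA : AnisR A) (hw : star w ≠ w)
    (hk : ∀ b : k, star (algebraMap k K b) = algebraMap k K b) {e a : k} (chr : CharOK k e)
    (he : w + star w = algebraMap k K e) (ha : w * star w = algebraMap k K a)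
    {c : UA A →* Q} {P : Subgroup Q} (hP : P.Normal)
    (hmin : ∀ N : Subgroup Q, N.Normal → N ≤ P → N = ⊥ ∨ N = P)
    (hC : Subgroup.centralizer (P : Set Q) = ⊥)
    (hbase : ∀ b : k, c (cy w (algebraMap k A b)) = 1)
    {σ₁ : A} (hσ₁ : star σ₁ = σ₁) (hirr : Irreducible (minpoly K σ₁))
    (hsep : (minpoly K σ₁).Separable)
    (hNE : ∀ u : UA A, ((u : Aˣ) : A) ∈ Algebra.adjoin K {σ₁} →
      H966.NE c P (HSA w (Algebra.adjoin K {σ₁}) u) (fun b : k => T w (algebraMap k A b)))
    {σ : A} (hσ : σ ∈ Algebra.adjoin k {σ₁}) (h0 : c (cy w σ) = 1) (b : k) :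
    c (cy w (σ + algebraMap k A b)) = 1 :=
  line_ring_FE hA hw hk chr he ha hP hmin hC hbase hσ₁ hsep (CF_adjoin hσ₁ hirr)
    (fun u hu => NE_mono (HS_sub_HSA _ hA hw u) (hNE u hu)) hσ h0 b

end

end Vale.Agent.P011.H158
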