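import Mathlib

/-!
# Linking in a finite abelian group

Abstract form of the linking step: if a weighted family of moves `v ω` in a finite abelian group
`G` is equidistributed modulo the characters trivial on a subgroup `G0`, then correlations of a
function with a function of mean zero on the cosets of `G0` are small along the moves.
-/

open Finset

namespace Vale.Agent.P011.H158

section Avg

variable {G : Type*} [AddCommGroup G] [Fintype G]

open Classical in
/-- The mean of `b` over the coset `x + G0`. -/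
noncomputable def avg (G0 : AddSubgroup G) (b : G → ℝ) (x : G) : ℝ :=
  (∑ y : G0, b (x + y)) / (Nat.card G0 : ℝ)

theorem card_pos' (G0 : AddSubgroup G) : (0 : ℝ) < (Nat.card G0 : ℝ) := by
  exact_mod_cast Nat.card_pos

theorem avg_nonneg {G0 : AddSubgroup G} {b : G → ℝ} (hb : ∀ x, 0 ≤ b x) (x : G) :
    0 ≤ avg G0 b x := by
  classical
  exact div_nonneg (Finset.sum_nonneg fun y _ => hb _) (card_pos' G0).le

theorem avg_add_mem (G0 : AddSubgroup G) (b : G → ℝ) (x : G) {z : G} (hz : z ∈ G0) :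
    avg G0 b (x + z) = avg G0 b x := by
  classical
  unfold avg
  congr 1
  refine Fintype.sum_equiv (Equiv.addLeft (⟨z, hz⟩ : G0)) _ _ fun y => ?_
  simp [add_assoc]

theorem avg_eq_of_sub_mem (G0 : AddSubgroup G) (b : G → ℝ) {x y : G} (h : y - x ∈ G0) :
    avg G0 b y = avg G0 b x := by
  have := avg_add_mem G0 b x h
  rwa [add_sub_cancel] at this

theorem avg_add (G0 : AddSubgroup G) (b c : G → ℝ) (x : G) :
    avg G0 (fun y => b y + c y) x = avg G0 b x + avg G0 c x := by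
  classical
  unfold avg
  rw [Finset.sum_add_distrib, add_div]

theorem avg_mono {G0 : AddSubgroup G} {b c : G → ℝ} (h : ∀ x, b x ≤ c x) (x : G) :
    avg G0 b x ≤ avg G0 c x := by
  classical
  unfold avg
  have := card_pos' G0
  gcongr
  exact h _

theorem avg_const (G0 : AddSubgroup G) (c : ℝ) (x : G) : avg G0 (fun _ => c) x = c := by
  classical
  unfold avg
  have := card_pos' G0
  rw [Finset.sum_const, Finset.card_univ, nsmul_eq_mul, ← Nat.card_eq_fintype_card]
  field_simp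

/-- Averaging first over a smaller subgroup changes nothing. -/
theorem avg_avg {G0 G1 : AddSubgroup G} (h : G1 ≤ G0) (b : G → ℝ) (x : G) :
    avg G0 (avg G1 b) x = avg G0 b x := by
  classical
  have h0 := card_pos' G0
  have h1 := card_pos' G1
  unfold avg
  rw [div_left_inj' h0.ne']
  rw [← Finset.sum_div, div_eq_iff h1.ne', Finset.sum_comm]
  have : ∀ y : G1, ∑ z : G0, b (x + z + y) = ∑ z : G0, b (x + z) := by
    intro y
    refine Fintype.sum_equiv (Equiv.addRight (⟨y, h y.2⟩ : G0)) _ _ fun z => ?_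
    simp [add_assoc]
  simp_rw [this]
  rw [Finset.sum_const, Finset.card_univ, nsmul_eq_mul, ← Nat.card_eq_fintype_card, mul_comm]

/-- Total sums and averages. -/
theorem sum_avg (G0 : AddSubgroup G) (b : G → ℝ) : ∑ x, avg G0 b x = ∑ x, b x := by
  classical
  have h0 := card_pos' G0
  unfold avg
  rw [← Finset.sum_div, div_eq_iff h0.ne', Finset.sum_comm]
  have : ∀ y : G0, ∑ x, b (x + y) = ∑ x, b x := by
    intro y
    exact Fintype.sum_equiv (Equiv.addRight (y : G)) _ _ fun z => rfl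
  simp_rw [this]
  rw [Finset.sum_const, Finset.card_univ, nsmul_eq_mul, ← Nat.card_eq_fintype_card, mul_comm]

/-- Pulling a function constant on cosets out of an average. -/
theorem avg_mul_left {G0 : AddSubgroup G} {c : G → ℝ} (hc : ∀ x, ∀ z ∈ G0, c (x + z) = c x)
    (b : G → ℝ) (x : G) : avg G0 (fun y => c y * b y) x = c x * avg G0 b x := by
  classical
  unfold avg
  rw [mul_div_assoc', Finset.mul_sum]
  congr 1
  refine Finset.sum_congr rfl fun y _ => ?_
  show c (x + y) * b (x + y) = c x * b (x + y)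
  rw [hc x y y.2]

end Avg

section Fourier

variable {G : Type*} [AddCommGroup G] [Fintype G]

/-- The Fourier transform (unnormalised, real input). -/
noncomputable def ft (a : G → ℝ) (ψ : AddChar G ℂ) : ℂ := ∑ x, (a x : ℂ) * ψ x

theorem ft_sub (a b : G → ℝ) (ψ : AddChar G ℂ) :
    ft (fun x => a x - b x) ψ = ft a ψ - ft b ψ := by
  simp [ft, sub_mul, Finset.sum_sub_distrib]

theorem conj_char (ψ : AddChar G ℂ) (x : G) : (starRingEnd ℂ) (ψ x) = ψ (-x) := by
  rw [AddChar.map_neg_eq_conj]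

theorem conj_ft (a : G → ℝ) (ψ : AddChar G ℂ) :
    (starRingEnd ℂ) (ft a ψ) = ∑ x, (a x : ℂ) * ψ (-x) := by
  simp only [ft, map_sum, map_mul, Complex.conj_ofReal, conj_char]

/-- Correlation of `a` and a translate of `b` through characters. -/
theorem sum_conj_ft_mul (a b : G → ℝ) (v : G) :
    ∑ ψ : AddChar G ℂ, (starRingEnd ℂ) (ft a ψ) * ft b ψ * ψ (-v) =
      (Fintype.card G : ℂ) * ((∑ x, a x * b (x + v) : ℝ) : ℂ) := by
  classical
  have h1 : ∀ ψ : AddChar G ℂ, (starRingEnd ℂ) (ft a ψ) * ft b ψ * ψ (-v) =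
      ∑ x, ∑ y, (a x : ℂ) * (b y : ℂ) * ψ (y - x - v) := by
    intro ψ
    rw [conj_ft, ft, Finset.sum_mul_sum, Finset.sum_mul]
    refine Finset.sum_congr rfl fun x _ => ?_
    rw [Finset.sum_mul]
    refine Finset.sum_congr rfl fun y _ => ?_
    rw [show y - x - v = -x + y + -v by abel, AddChar.map_add_eq_mul, AddChar.map_add_eq_mul]
    ring
  simp_rw [h1]
  rw [Finset.sum_comm]
  rw [Complex.ofReal_sum, Finset.mul_sum]
  refine Finset.sum_congr rfl fun x _ => ?_
  rw [Finset.sum_comm]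
  have h2 : ∀ y, ∑ ψ : AddChar G ℂ, (a x : ℂ) * (b y : ℂ) * ψ (y - x - v) =
      if y = x + v then (Fintype.card G : ℂ) * ((a x : ℂ) * (b (x + v) : ℂ)) else 0 := by
    intro y
    rw [← Finset.mul_sum, AddChar.sum_apply_eq_ite]
    by_cases h : y = x + v
    · subst h
      simp
      ring
    · have : y - x - v ≠ 0 := fun h' => h (by rw [sub_sub, sub_eq_zero] at h'; exact h')
      simp [h, this]
  simp_rw [h2]
  rw [Finset.sum_ite_eq' Finset.univ (x + v)]
  simp

/-- Parseval. -/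
theorem sum_norm_ft_sq (a : G → ℝ) :
    ∑ ψ : AddChar G ℂ, ‖ft a ψ‖ ^ 2 = (Fintype.card G : ℝ) * ∑ x, a x ^ 2 := by
  have h := sum_conj_ft_mul a a 0
  have h2 : ∀ ψ : AddChar G ℂ, (starRingEnd ℂ) (ft a ψ) * ft a ψ * ψ (-0) =
      ((‖ft a ψ‖ ^ 2 : ℝ) : ℂ) := by
    intro ψ
    rw [neg_zero, AddChar.map_zero_eq_one, mul_one, mul_comm, Complex.mul_conj,
      Complex.normSq_eq_norm_sq]
  simp_rw [h2] at h
  rw [← Complex.ofReal_sum] at h
  have h3 : ((∑ ψ : AddChar G ℂ, ‖ft a ψ‖ ^ 2 : ℝ) : ℂ) =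
      (((Fintype.card G : ℝ) * ∑ x, a x ^ 2 : ℝ) : ℂ) := by
    rw [h]
    push_cast
    congr 1
    refine Finset.sum_congr rfl fun x _ => ?_
    rw [add_zero, sq]
  exact_mod_cast h3

open Classical in
theorem ft_avg (G0 : AddSubgroup G) (b : G → ℝ) (ψ : AddChar G ℂ) :
    ft (avg G0 b) ψ = if (∀ x ∈ G0, ψ x = 1) then ft b ψ else 0 := by
  have h0 := card_pos' G0
  have h1 : ft (avg G0 b) ψ = (∑ y : G0, ψ (-(y : G))) / (Nat.card G0 : ℂ) * ft b ψ := by
    unfold ft avg
    have : ∀ x, (((∑ y : G0, b (x + y)) / (Nat.card G0 : ℝ) : ℝ) : ℂ) * ψ x =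
        (∑ y : G0, (b (x + y) : ℂ) * ψ x) / (Nat.card G0 : ℂ) := by
      intro x
      push_cast
      rw [← Finset.sum_mul]
      ring
    simp_rw [this]
    rw [← Finset.sum_div, Finset.sum_comm, div_mul_eq_mul_div, Finset.sum_mul]
    congr 1
    refine Finset.sum_congr rfl fun y _ => ?_
    rw [Finset.mul_sum]
    refine Fintype.sum_equiv (Equiv.addRight (y : G)) _ _ fun x => ?_
    simp only [Equiv.coe_addRight]
    rw [show ψ x = ψ (-(y : G) + (x + y)) by congr 1; abel, AddChar.map_add_eq_mul]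
    ring
  rw [h1]
  split_ifs with h
  · have : ∀ y : G0, ψ (-(y : G)) = 1 := fun y => h _ (G0.neg_mem y.2)
    simp_rw [this]
    rw [Finset.sum_const, Finset.card_univ, nsmul_eq_mul, ← Nat.card_eq_fintype_card, mul_one,
      div_self (by exact_mod_cast h0.ne'), one_mul]
  · have hne : ψ.compAddMonoidHom (G0.subtype) ≠ 0 := by
      intro h'
      apply h
      intro x hx
      have := congrArg (fun χ : AddChar G0 ℂ => χ ⟨x, hx⟩) h'
      simpa using this
    have hs : ∑ y : G0, (ψ.compAddMonoidHom (G0.subtype)) y = 0 :=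
      AddChar.sum_eq_zero_iff_ne_zero.mpr hne
    have hs' : ∑ y : G0, ψ (-(y : G)) = 0 := by
      rw [← hs]
      exact Fintype.sum_equiv (Equiv.neg G0) _ _ fun y => by simp
    rw [hs']
    simp

/-- **Bilinear decorrelation.** If the weighted family of moves is `η`-equidistributed for all
characters nontrivial on `G0`, then the correlation of `a` with the part of `b` orthogonal to the
`G0`-periodic functions is at most `η * |a| * |b|`. -/
theorem link_abs (G0 : AddSubgroup G) {Ω : Type*} [Fintype Ω] (w : Ω → ℝ) (v : Ω → G) {η : ℝ}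
    (hη0 : 0 ≤ η) (hη : ∀ ψ : AddChar G ℂ, (∃ x ∈ G0, ψ x ≠ 1) → ‖∑ ω, (w ω : ℂ) * ψ (v ω)‖ ≤ η)
    (a b : G → ℝ) :
    |∑ ω, w ω * ∑ x, a x * (b (x + v ω) - avg G0 b (x + v ω))| ≤
      η * (√(∑ x, a x ^ 2) * √(∑ x, b x ^ 2)) := by
  classical
  have hG : (0 : ℝ) < Fintype.card G := by exact_mod_cast Fintype.card_pos
  set c : G → ℝ := fun x => b x - avg G0 b x with hc
  set T : ℝ := ∑ ω, w ω * ∑ x, a x * c (x + v ω) with hT
  have key : (Fintype.card G : ℂ) * (T : ℂ) =
      ∑ ψ : AddChar G ℂ, (starRingEnd ℂ) (ft a ψ) * ft c ψ * ∑ ω, (w ω : ℂ) * ψ (-(v ω)) := by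
    have h1 : (Fintype.card G : ℂ) * (T : ℂ) =
        ∑ ω, (w ω : ℂ) * ((Fintype.card G : ℂ) * ((∑ x, a x * c (x + v ω) : ℝ) : ℂ)) := by
      rw [hT]
      push_cast
      rw [Finset.mul_sum]
      refine Finset.sum_congr rfl fun ω _ => ?_
      ring
    rw [h1]
    simp_rw [← sum_conj_ft_mul, Finset.mul_sum]
    rw [Finset.sum_comm]
    refine Finset.sum_congr rfl fun ψ _ => ?_
    refine Finset.sum_congr rfl fun ω _ => ?_
    ring
  have hterm : ∀ ψ : AddChar G ℂ,
      ‖(starRingEnd ℂ) (ft a ψ) * ft c ψ * ∑ ω, (w ω : ℂ) * ψ (-(v ω))‖ ≤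
        η * (‖ft a ψ‖ * ‖ft b ψ‖) := by
    intro ψ
    have hfc : ft c ψ = ft b ψ - ft (avg G0 b) ψ := ft_sub b (avg G0 b) ψ
    rw [ft_avg] at hfc
    by_cases h : ∀ x ∈ G0, ψ x = 1
    · rw [if_pos h, sub_self] at hfc
      rw [hfc]
      simp only [mul_zero, zero_mul, norm_zero]
      positivity
    · rw [if_neg h, sub_zero] at hfc
      push Not at h
      have h2 := hη ψ h
      have h3 : ‖∑ ω, (w ω : ℂ) * ψ (-(v ω))‖ = ‖∑ ω, (w ω : ℂ) * ψ (v ω)‖ := by
        rw [← Complex.norm_conj (∑ ω, (w ω : ℂ) * ψ (v ω)), map_sum]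
        congr 1
        refine Finset.sum_congr rfl fun ω _ => ?_
        rw [map_mul, Complex.conj_ofReal, conj_char]
      rw [norm_mul, norm_mul, h3, hfc, Complex.norm_conj]
      have : 0 ≤ ‖ft a ψ‖ * ‖ft b ψ‖ := by positivity
      nlinarith
  have h1 : (Fintype.card G : ℝ) * |T| ≤ η * ∑ ψ : AddChar G ℂ, ‖ft a ψ‖ * ‖ft b ψ‖ := by
    have h2 : ‖(Fintype.card G : ℂ) * (T : ℂ)‖ = (Fintype.card G : ℝ) * |T| := by
      rw [norm_mul, Complex.norm_natCast, Complex.norm_real, Real.norm_eq_abs]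
    rw [← h2, key, Finset.mul_sum]
    exact (norm_sum_le _ _).trans (Finset.sum_le_sum fun ψ _ => hterm ψ)
  have h2 : ∑ ψ : AddChar G ℂ, ‖ft a ψ‖ * ‖ft b ψ‖ ≤
      (Fintype.card G : ℝ) * (√(∑ x, a x ^ 2) * √(∑ x, b x ^ 2)) := by
    refine (Real.sum_mul_le_sqrt_mul_sqrt _ _ _).trans ?_
    rw [sum_norm_ft_sq, sum_norm_ft_sq, Real.sqrt_mul hG.le, Real.sqrt_mul hG.le]
    refine le_of_eq ?_
    calc √(Fintype.card G : ℝ) * √(∑ x, a x ^ 2) * (√(Fintype.card G : ℝ) * √(∑ x, b x ^ 2)) =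
        (√(Fintype.card G : ℝ) * √(Fintype.card G : ℝ)) *
          (√(∑ x, a x ^ 2) * √(∑ x, b x ^ 2)) := by ring
      _ = _ := by rw [Real.mul_self_sqrt hG.le]
  have h3 : (Fintype.card G : ℝ) * |T| ≤
      (Fintype.card G : ℝ) * (η * (√(∑ x, a x ^ 2) * √(∑ x, b x ^ 2))) := by
    calc (Fintype.card G : ℝ) * |T| ≤ η * ∑ ψ : AddChar G ℂ, ‖ft a ψ‖ * ‖ft b ψ‖ := h1
      _ ≤ η * ((Fintype.card G : ℝ) * (√(∑ x, a x ^ 2) * √(∑ x, b x ^ 2))) := by gcongr
      _ = _ := by ring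
  exact le_of_mul_le_mul_left h3 hG

end Fourier

end Vale.Agent.P011.H158
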