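import Vale.Agent.P011.H158.N4FinF
import Vale.Agent.P011.H748.N4Gen

/-!
# N4 over function fields: on generic lines through the base point all points are good at almost
all nonsplit places
-/

open Module

set_option linter.unusedSectionVars false
set_option linter.unusedSimpArgs false

namespace Vale.Agent.P011.H158.N4

open Vale.Agent.P011.H305 Vale.Agent.P011.H738 Vale.Agent.P011.H271 Vale.Agent.P011.H182
  Vale.Agent.P011.H775 Vale.Agent.P011.H948 Vale.Agent.P011.H929.FF
open Vale.Agent.P011.H748 (spl_closed f_line)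
open Vale.Agent.P011.H929 (dP dP_ne_zero')

variable {k K D : Type} [Field k] [GFF k] [Field K] [StarRing K]
    [DivisionRing D] [StarRing D] [Algebra k K] [Algebra k D] [Algebra K D] [IsScalarTower k K D]
    {d : kˣ} {s : K} {N : ℕ}

theorem three_K (h3 : (3 : k) ≠ 0) : (3 : K) ≠ 0 := by
  rw [← map_ofNat (algebraMap k K) 3]
  exact (_root_.map_ne_zero _).mpr h3

/-- Existence of the direction at the base point. -/
theorem exists_dir (hS : SetF k K D d s) (h3 : (3 : k) ≠ 0) (C : Cub K D)
    (h9 : finrank K D = 3 ^ 2) {z : D} (hz : z ≠ 0) :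
    ∃ b : D, star b = b ∧ C.T (z * b) = 0 ∧ C.T (z * C.adj b) ≠ 0 := by
  have _ := hS.fin
  have _ := hS.cen
  exact H748.Gen.exists_dir (two_K hS) (three_K (k := k) h3) hS.star_s hS.s_ne
    (sCub_of C h9 hS.star_smul) h9 hz

/-- **N4.** Through the base point `u` in the direction `b`: the lines through almost all points
near any target are good. -/
theorem n4 (hS : SetF k K D d s) (h3 : (3 : k) ≠ 0) (C : Cub K D) (h9 : finrank K D = 3 ^ 2)
    (B : Basis (Fin N) k D) {x u b : D} (hx : x * star x = 1) (hxN : C.N x = 1)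
    (hu : u * star u = 1) (huc : u ∉ Set.range (algebraMap K D)) (hT : C.T ((x - 1) * u) = 0)
    (hb : star b = b) (h8 : C.T ((x - 1) * u * b) = 0)
    (h8' : C.T ((x - 1) * u * C.adj b) ≠ 0) :
    ∃ a : D, star a = a ∧ ∀ e : D, star e = e →
      {r : k | ¬ GoodLine C B d x u (e + r • (a - e)) b}.Finite := by
  have _ := hS.fin
  have _ := hS.cen
  have _ : Infinite k := Hey.gff_infinite k
  have h30 : (3 : K) ≠ 0 := three_K (k := k) h3
  have h : SCub C := sCub_of C h9 hS.star_smul
  have hdP : dP C u ≠ 0 := dP_ne_zero' C h30 h9 huc (H748.noncentral huc)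
  obtain ⟨Ω, _, _, _, f, hf, fT, fN, fA⟩ := spl_closed C
  obtain ⟨a, hsa, ha⟩ := H748.Gen.n4_gen (two_K hS) h30 hS.star_s hS.s_ne
    (fun c => (hS.fix _).mpr ⟨c, rfl⟩) h h9 hx hxN hu huc hT hb h8 h8' fT fN fA
  refine ⟨a, hsa, fun e he => (ha e he).subset fun r hr hcon => hr ?_⟩
  have hsym : star (e + r • (a - e)) = e + r • (a - e) := by
    rw [star_add, star_k hS, star_sub, hsa, he]
  refine goodLine_of hS C h9 B hx hxN hu huc hdP hT hsym hb h8 h8' fT fN fA (q := a) fun t => ?_
  exact hcon t

end Vale.Agent.P011.H158.N4
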