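import Vale.Agent.P011.H158.N4F

/-!
# N4 in every characteristic different from two, at a separable base point
-/

open Module

set_option linter.unusedSectionVars false
set_option linter.unusedSimpArgs false
set_option linter.unusedVariables false

namespace Vale.Agent.P011.H158.N4.G

open Vale.Agent.P011.H775 Vale.Agent.P011.H948
open Vale.Agent.P011.H748 hiding trF trF_apply crL crL_inj
open Vale.Agent.P011.H748.Gen (trF trF_apply crL crL_inj sym_aniso sym_two finite_root finite_lin
  not_prop conds finrank_conds mem_conds conds_star not_range_of_same)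

section iso

variable {K D : Type} [Field K] [DivisionRing D] [Algebra K D]
  [FiniteDimensional K D] (C : Cub K D)

/-- The reduced trace is not zero. -/
theorem exists_T [Algebra.IsCentral K D] (h9 : finrank K D = 3 ^ 2) : ∃ x, C.T x ≠ 0 := by
  obtain ⟨Ω, _, _, _, f, hf, fT, -, -⟩ := spl_closed C
  by_contra hcon
  push Not at hcon
  let b := Module.finBasisOfFinrankEq K D h9
  have hind := H268.splitS_indep (by norm_num) f b
  have hspan : Submodule.span Ω (Set.range fun i => f (b i)) = ⊤ := by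
    apply hind.span_eq_top_of_card_eq_finrank'
    rw [Fintype.card_fin, Module.finrank_matrix]
    simp
  have hz : ∀ M : Matrix (Fin 3) (Fin 3) Ω, M.trace = 0 := by
    intro M
    have hM : M ∈ Submodule.span Ω (Set.range fun i => f (b i)) := hspan ▸ Submodule.mem_top
    induction hM using Submodule.span_induction with
    | mem x hx =>
      obtain ⟨i, rfl⟩ := hx
      change (f (b i)).trace = 0
      rw [fT, hcon, map_zero]
    | zero => exact Matrix.trace_zero _ _
    | add x y _ _ hx hy => rw [Matrix.trace_add, hx, hy, add_zero]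
    | smul a x _ hx => rw [Matrix.trace_smul, hx, smul_zero]
  have := hz (Matrix.single 0 0 1)
  rw [Matrix.trace_single_eq_same] at this
  exact one_ne_zero this

theorem trF_inj (hT : ∃ x, C.T x ≠ 0) : Function.Injective (trF C) := by
  rw [← LinearMap.ker_eq_bot, LinearMap.ker_eq_bot']
  intro y hy
  by_contra hne
  obtain ⟨x, hx⟩ := hT
  have := LinearMap.congr_fun hy (y⁻¹ * x)
  rw [trF_apply, mul_inv_cancel_left₀ hne, LinearMap.zero_apply] at this
  exact hx this

/-- The quadratic form `T (ν a^#)` has no isotropic subspace of dimension five. -/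
theorem exists_aniso (h20 : (2 : K) ≠ 0) (hT : ∃ x, C.T x ≠ 0) (h9 : finrank K D = 3 ^ 2) {n : D} (hn : n ≠ 0) (W : Submodule K D)
    (hW : 5 ≤ finrank K W) : ∃ w ∈ W, C.T (n * C.adj w) ≠ 0 := by
  by_contra hcon
  push Not at hcon
  have hcr : ∀ a ∈ W, ∀ b ∈ W, C.T (n * C.cr a b) = 0 := by
    intro a ha b hb
    have h1 := hcon (a + b) (W.add_mem ha hb)
    rw [C.adj_add, mul_add, mul_add, map_add, map_add, hcon a ha, hcon b hb, zero_add,
      zero_add] at h1
    exact h1
  let ψ : D →ₗ[K] Dual K D := trF C ∘ₗ crL C n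
  have hψ : Function.Injective ψ := (trF_inj C hT).comp (crL_inj C h20 hn)
  have hle : W.map ψ ≤ W.dualAnnihilator := by
    rintro _ ⟨a, ha, rfl⟩
    rw [Submodule.mem_dualAnnihilator]
    intro b hb
    change C.T (C.cr n a * b) = 0
    rw [C.T_cr_mul]
    exact hcr a ha b hb
  have h1 : finrank K (W.map ψ) = finrank K W :=
    LinearEquiv.finrank_eq (Submodule.equivMapOfInjective ψ hψ W).symm
  have h2 := Submodule.finrank_mono hle
  have h3 := Subspace.finrank_add_finrank_dualAnnihilator_eq W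
  rw [h1] at h2
  rw [h9] at h3
  omega

end iso

section main

variable {k K D : Type} [Field k] [Infinite k] [Field K] [StarRing K]
    [DivisionRing D] [StarRing D] [Algebra k K] [Algebra k D] [Algebra K D] [IsScalarTower k K D]
    [FiniteDimensional K D] [Algebra.IsCentral K D] {s : K}
    (h20 : (2 : K) ≠ 0) (hs : star s = -s) (hs0 : s ≠ 0)

include h20 hs hs0

/-- Existence of the direction at the base point. -/
theorem exists_dir {C : Cub K D} (h : SCub C) (h9 : finrank K D = 3 ^ 2)
    {z : D} (hz : z ≠ 0) : ∃ b : D, star b = b ∧ C.T (z * b) = 0 ∧ C.T (z * C.adj b) ≠ 0 := by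
  obtain ⟨a, ha, hsa, h1⟩ := sym_aniso h h20 hs hs0
    (W := LinearMap.ker (conds C z (star z) 0 0))
    (fun w hw => conds_star h (by rw [star_zero, neg_zero]) (star_zero D) hw) (n := z)
    (exists_aniso C h20 (exists_T C h9) h9 hz _ (finrank_conds C h9 _ _ _ _))
  exact ⟨a, hsa, ((mem_conds C _ _ _ _ _).mp ha).1, h1⟩

/-- Existence of the special point. -/
theorem exists_special (hfix : ∀ c : k, star (algebraMap k K c) = algebraMap k K c)
    {C : Cub K D} (h : SCub C) (h9 : finrank K D = 3 ^ 2)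
    {x u : D} (hx : x * star x = 1) (hxN : C.N x = 1) (hu : u * star u = 1)
    (huc : u ∉ Set.range (algebraMap K D)) (hT : C.T ((x - 1) * u) = 0) {b : D}
    (hb : star b = b) (h8 : C.T ((x - 1) * u * b) = 0)
    (h8' : C.T ((x - 1) * u * C.adj b) ≠ 0) :
    ∃ a : D, star a = a ∧ C.T ((x - 1) * u * a) = 0 ∧
      star (C.T ((x - 1) * u * C.cr a b) / C.T ((x - 1) * u * C.adj b)) =
        C.T ((x - 1) * u * C.cr a b) / C.T ((x - 1) * u * C.adj b) ∧
      star (C.T ((x - 1) * u * C.adj a) / C.T ((x - 1) * u * C.adj b)) ≠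
        C.T ((x - 1) * u * C.adj a) / C.T ((x - 1) * u * C.adj b) ∧
      u * a - a * u ≠ 0 ∧ x * u * a - a * (x * u) ≠ 0 := by
  obtain ⟨hT1, hS1', hN1⟩ := h.same hx hxN hu hT
  have hxu := not_range_of_same C huc hT1 hS1' hN1
  set z := (x - 1) * u with hz
  set s8 := C.T (z * C.adj b) with hs8
  have hz0 : z ≠ 0 := by
    intro h0
    rw [hs8, h0, zero_mul, map_zero] at h8'
    exact h8' rfl
  obtain ⟨n, hn⟩ : ∃ n, n = s8⁻¹ • z - (star s8)⁻¹ • star z := ⟨_, rfl⟩
  have hsn : star n = -n := by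
    rw [hn, star_sub, h.smul, h.smul, star_inv₀, star_inv₀, star_star, star_star, neg_sub]
  have h8s : star s8 ≠ 0 := star_ne_zero.mpr h8'
  have hn0 : n ≠ 0 := by
    intro h0
    rw [hn, sub_eq_zero] at h0
    apply not_prop h hx hxN hu huc hT hz0 (ρ := star s8 * s8⁻¹)
      (mul_ne_zero h8s (inv_ne_zero h8'))
    rw [mul_smul, ← hz, h0, smul_smul, mul_inv_cancel₀ h8s, one_smul]
  have hW := fun w (hw : w ∈ LinearMap.ker (conds C z (star z) n b)) =>
    conds_star h hsn hb hw
  have hf := finrank_conds C h9 z (star z) n b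
  obtain ⟨a1, ha1, hs1, h1⟩ := sym_aniso h h20 hs hs0 hW (n := n)
    (exists_aniso C h20 (exists_T C h9) h9 hn0 _ hf)
  obtain ⟨a2, ha2, hs2, h2, h3⟩ := sym_two h h20 hs hs0 hW h9 hf huc hxu
  -- combine
  have hfin : ({r : k | C.T (n * C.adj a1) + algebraMap k K r * C.T (n * C.cr a1 a2) +
      algebraMap k K r ^ 2 * C.T (n * C.adj a2) = 0} ∪
      ({r : k | (u * a1 - a1 * u) + r • (u * a2 - a2 * u) = 0} ∪
       {r : k | (x * u * a1 - a1 * (x * u)) + r • (x * u * a2 - a2 * (x * u)) = 0})).Finite :=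
    (finite_root _ _ _ h1).union ((finite_lin _ _ h2).union (finite_lin _ _ h3))
  obtain ⟨r, hr⟩ := hfin.infinite_compl.nonempty
  simp only [Set.mem_compl_iff, Set.mem_union, Set.mem_ofPred_eq, not_or] at hr
  obtain ⟨r1, r2, r3⟩ := hr
  have hrs : star (algebraMap k K r) = algebraMap k K r := hfix r
  obtain ⟨a, haE⟩ : ∃ a, a = a1 + algebraMap k K r • a2 := ⟨_, rfl⟩
  have haW : a ∈ LinearMap.ker (conds C z (star z) n b) := by
    rw [haE]
    exact add_mem ha1 (Submodule.smul_mem _ _ ha2)
  have hsa : star a = a := by rw [haE, star_add, h.smul, hs1, hs2, hrs]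
  have hTn : C.T (n * C.adj a) ≠ 0 := by
    rw [haE, C.adj_add, C.adj_smul, C.cr_smul_right, mul_add, mul_add, mul_smul_comm,
      mul_smul_comm, map_add, map_add, map_smul, map_smul, smul_eq_mul, smul_eq_mul]
    intro h0
    apply r1
    linear_combination h0
  have hcomm : ∀ w : D, w * a - a * w = (w * a1 - a1 * w) + r • (w * a2 - a2 * w) := by
    intro w
    rw [haE, algebraMap_smul, mul_add, add_mul, mul_smul_comm, smul_mul_assoc, smul_sub]
    abel
  obtain ⟨c1, c2, c3⟩ := (mem_conds C _ _ _ _ _).mp haW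
  -- the form `T (n ·)` on symmetric elements
  have hform : ∀ y : D, star y = y → C.T (n * y) = C.T (z * y) / s8 - star (C.T (z * y) / s8) := by
    intro y hy
    rw [hn, sub_mul, smul_mul_assoc, smul_mul_assoc, map_sub, map_smul, map_smul, T_star h hy,
      star_div₀, smul_eq_mul, smul_eq_mul, div_eq_inv_mul, div_eq_inv_mul]
  refine ⟨a, hsa, c1, ?_, ?_, ?_, ?_⟩
  · rw [hform _ (h.cr_symm hsa hb)] at c3
    exact (sub_eq_zero.mp c3).symm
  · intro h0
    apply hTn
    rw [hform _ (h.adj_symm hsa), h0, sub_self]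
  · rw [hcomm]
    exact r2
  · rw [hcomm]
    exact r3

/-- **N4, field-general form.** `GoodPt` at all points of the generic line. -/
theorem n4_gen (hfix : ∀ c : k, star (algebraMap k K c) = algebraMap k K c)
    {C : Cub K D} (h : SCub C) (h9 : finrank K D = 3 ^ 2) {x u b : D} (hx : x * star x = 1)
    (hxN : C.N x = 1)
    (hu : u * star u = 1) (huc : u ∉ Set.range (algebraMap K D)) (hT : C.T ((x - 1) * u) = 0)
    (hb : star b = b) (h8 : C.T ((x - 1) * u * b) = 0)
    (h8' : C.T ((x - 1) * u * C.adj b) ≠ 0)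
    {Ω : Type} [Field Ω] [IsAlgClosed Ω] [Algebra K Ω] {f : D →ₐ[K] Matrix (Fin 3) (Fin 3) Ω}
    (fT : ∀ x, (f x).trace = algebraMap K Ω (C.T x))
    (fN : ∀ x, (f x).det = algebraMap K Ω (C.N x)) (fA : ∀ x, (f x).adjugate = f (C.adj x)) :
    ∃ a : D, star a = a ∧ ∀ e : D, star e = e →
      {r : k | ¬ ∀ t : Ω, GoodPt (f u) (f (x * u)) (f ((x - 1) * u)) (f (star ((x - 1) * u)))
        (f a) (f (e + r • (a - e)) + t • f b)}.Finite := by
  obtain ⟨hT1, hS1', hN1⟩ := h.same hx hxN hu hT
  obtain ⟨a, hsa, c1, c2, c3, c4, c5⟩ := exists_special h20 hs hs0 hfix h h9 hx hxN hu huc hT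
    hb h8 h8'
  have hxu1 : x * u * star (x * u) = 1 := by
    rw [star_mul, mul_assoc, ← mul_assoc u, hu, one_mul, hx]
  refine ⟨a, hsa, fun e he => ?_⟩
  have hsp := special_good h fT fN fA h9 hsa hb c1 h8 h8' c2 c3 hu hxu1 c4 c5
  have g8 : (bem (f ((x - 1) * u)) (f b)).det ≠ 0 := by
    rw [← f_be C fT fA, fN, be_special C h8, N_smul_one]
    exact (_root_.map_ne_zero _).mpr (pow_ne_zero _ h8')
  have gG : ∀ w : D, w * a - a * w ≠ 0 →
      cd (qm (f w) (f ((x - 1) * u)) (f (star ((x - 1) * u))) (f b)) (f a) ≠ 0 := by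
    intro w hw
    rw [← f_qq C fT fA, cd, ← map_mul, ← map_mul, ← map_sub, fN, qq_special h w hb h8,
      smul_mul_assoc, mul_smul_comm, ← smul_sub]
    exact (_root_.map_ne_zero _).mpr (C.N_ne_zero (smul_ne_zero
      (mul_ne_zero (star_ne_zero.mpr h8') (pow_ne_zero _ h8')) hw))
  have hfin := generic_line g8 (gG u c4) (gG (x * u) c5) hsp (f e)
  have hinj : Function.Injective fun r : k => algebraMap K Ω (algebraMap k K r) :=
    (algebraMap K Ω).injective.comp (algebraMap k K).injective
  refine (hfin.preimage hinj.injOn).subset fun r hr => ?_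
  intro hcon
  apply hr
  intro t
  rw [f_line, map_sub]
  exact hcon t

end main

end Vale.Agent.P011.H158.N4.G
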