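import Vale.Agent.P011.H748.N4Curve
import Vale.Agent.P011.H271.KSF
import Vale.Agent.P011.H929.FFc

/-!
# Integrality of the curve at almost all places, units at nonsplit places: function fields
-/

open Module Polynomial

set_option linter.unusedSectionVars false
set_option linter.unusedSimpArgs false

namespace Vale.Agent.P011.H158.N4

open Vale.Agent.P011.H305 Vale.Agent.P011.H738 Vale.Agent.P011.H271 Vale.Agent.P011.H182
  Vale.Agent.P011.H775 Vale.Agent.P011.H948 Vale.Agent.P011.H929.FF Vale.Agent.P011.H748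

section places

variable {k : Type} [Field k]

theorem isNonarch (v : Place k) : IsNonarchimedean v.abv := v.nonarch

/-- The element is a square at the place. -/
def SqAt (d : k) (v : Place k) : Prop := ∃ α : v.comp, α ^ 2 = algebraMap k v.comp d

theorem abv_add_lt {v : Place k} {a b : k} (ha : v.abv a < 1) (hb : v.abv b < 1) :
    v.abv (a + b) < 1 := (v.nonarch a b).trans_lt (max_lt ha hb)

theorem abv_add_le {v : Place k} {a b : k} (ha : v.abv a ≤ 1) (hb : v.abv b ≤ 1) :
    v.abv (a + b) ≤ 1 := (v.nonarch a b).trans (max_le ha hb)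

theorem abv_mul_le {v : Place k} {a b : k} (ha : v.abv a ≤ 1) (hb : v.abv b ≤ 1) :
    v.abv (a * b) ≤ 1 := by
  rw [map_mul]
  exact mul_le_one₀ ha (AbsoluteValue.nonneg _ _) hb

theorem abv_mul_lt {v : Place k} {a b : k} (ha : v.abv a ≤ 1) (hb : v.abv b < 1) :
    v.abv (a * b) < 1 := by
  rw [map_mul]
  exact mul_lt_one_of_nonneg_of_lt_one_right ha (AbsoluteValue.nonneg _ _) hb

theorem abv_mul_lt' {v : Place k} {a b : k} (ha : v.abv a < 1) (hb : v.abv b ≤ 1) :
    v.abv (a * b) < 1 := by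
  rw [mul_comm]
  exact abv_mul_lt hb ha

theorem abv_pow_le {v : Place k} {a : k} (ha : v.abv a ≤ 1) (n : ℕ) : v.abv (a ^ n) ≤ 1 := by
  rw [map_pow]
  exact pow_le_one₀ (AbsoluteValue.nonneg _ _) ha

variable [GFF k]

theorem finite_big (x : k) : {v : Place k | ¬ v.abv x ≤ 1}.Finite := by
  by_cases hx : x = 0
  · convert Set.finite_empty
    ext v
    simp [hx]
  · refine (place_finite hx).subset fun v hv => ?_
    simp only [Set.mem_ofPred_eq] at hv ⊢
    intro h
    exact hv h.le

theorem finite_not_unit {c : k} (hc : c ≠ 0) : {v : Place k | ¬ v.abv c = 1}.Finite :=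
  place_finite hc

/-- Almost all places are good. -/
theorem finite_bad {D : Type} [DivisionRing D] [StarRing D] [Algebra k D] {N : ℕ}
    (B : Basis (Fin N) k D) : {v : Place k | ¬ Gd B v.abv}.Finite := by
  have hf : ∀ x : D, {v : Place k | ¬ Ig B v.abv x}.Finite := by
    intro x
    refine (Set.finite_iUnion fun i => finite_big (B.repr x i)).subset fun v hv => ?_
    simp only [Set.mem_ofPred_eq, Ig, not_forall] at hv
    obtain ⟨i, hi⟩ := hv
    exact Set.mem_iUnion.mpr ⟨i, hi⟩
  refine (((hf 1).union (Set.finite_iUnion fun i => Set.finite_iUnion fun j =>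
    hf (B i * B j))).union (Set.finite_iUnion fun i => hf (star (B i)))).subset fun v hv => ?_
  simp only [Set.mem_union, Set.mem_iUnion, Set.mem_ofPred_eq]
  by_contra hcon
  push Not at hcon
  exact hv ⟨isNonarch v, hcon.1.1, hcon.1.2, hcon.2⟩

end places

section base

variable {k K D : Type} [Field k] [Field K] [StarRing K]
    [DivisionRing D] [StarRing D] [Algebra k K] [Algebra k D] [Algebra K D] [IsScalarTower k K D]
    {d : kˣ} {s : K} (v : Place k)

/-- `v`-integral elements of `K` (at a place where `2` and `d` are units). -/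
def KI (s : K) (e : K) : Prop := ∃ a b : k, e = algebraMap k K a + algebraMap k K b * s ∧
  v.abv a ≤ 1 ∧ v.abv b ≤ 1

/-- `v`-small elements of `K`. -/
def KS (s : K) (e : K) : Prop := ∃ a b : k, e = algebraMap k K a + algebraMap k K b * s ∧
  v.abv a < 1 ∧ v.abv b < 1

variable {v}

theorem KI.add {e e' : K} (h : KI v s e) (h' : KI v s e') : KI v s (e + e') := by
  obtain ⟨a, b, rfl, ha, hb⟩ := h
  obtain ⟨a', b', rfl, ha', hb'⟩ := h'
  exact ⟨a + a', b + b', by rw [map_add, map_add]; ring, abv_add_le ha ha',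
    abv_add_le hb hb'⟩

theorem KS.add {e e' : K} (h : KS v s e) (h' : KS v s e') : KS v s (e + e') := by
  obtain ⟨a, b, rfl, ha, hb⟩ := h
  obtain ⟨a', b', rfl, ha', hb'⟩ := h'
  exact ⟨a + a', b + b', by rw [map_add, map_add]; ring, abv_add_lt ha ha',
    abv_add_lt hb hb'⟩

theorem ki_of {a : k} (ha : v.abv a ≤ 1) : KI v s (algebraMap k K a) :=
  ⟨a, 0, by rw [map_zero, zero_mul, add_zero], ha, by rw [map_zero]; exact zero_le_one⟩

theorem ks_zero : KS v s (0 : K) := ⟨0, 0, by simp, by simp, by simp⟩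

theorem KI.mul (hS : SetF k K D d s) (hd : v.abv (d : k) ≤ 1) {e e' : K}
    (h : KI v s e) (h' : KI v s e') : KI v s (e * e') := by
  obtain ⟨a, b, rfl, ha, hb⟩ := h
  obtain ⟨a', b', rfl, ha', hb'⟩ := h'
  refine ⟨a * a' + b * b' * d, a * b' + b * a', ?_, ?_, ?_⟩
  · have hsq := hS.sq
    simp only [map_add, map_mul]
    rw [← hsq]
    ring
  · exact abv_add_le (abv_mul_le ha ha') (abv_mul_le (abv_mul_le hb hb') hd)
  · exact abv_add_le (abv_mul_le ha hb') (abv_mul_le hb ha')

theorem KS.mul (hS : SetF k K D d s) (hd : v.abv (d : k) ≤ 1) {e e' : K}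
    (h : KI v s e) (h' : KS v s e') : KS v s (e * e') := by
  obtain ⟨a, b, rfl, ha, hb⟩ := h
  obtain ⟨a', b', rfl, ha', hb'⟩ := h'
  refine ⟨a * a' + b * b' * d, a * b' + b * a', ?_, ?_, ?_⟩
  · have hsq := hS.sq
    simp only [map_add, map_mul]
    rw [← hsq]
    ring
  · exact abv_add_lt (abv_mul_lt ha ha') (abv_mul_lt' (abv_mul_lt hb hb') hd)
  · exact abv_add_lt (abv_mul_lt ha hb') (abv_mul_lt hb ha')

theorem KS.star (hS : SetF k K D d s) {e : K} (h : KS v s e) : KS v s (Star.star e) := by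
  obtain ⟨a, b, rfl, ha, hb⟩ := h
  refine ⟨a, -b, ?_, ha, by rwa [AbsoluteValue.map_neg]⟩
  rw [star_add, star_mul', hS.star_s, (hS.fix _).mpr ⟨a, rfl⟩, (hS.fix _).mpr ⟨b, rfl⟩, map_neg]
  ring

theorem ks_unique (hS : SetF k K D d s) {a b a' b' : k}
    (h : algebraMap k K a + algebraMap k K b * s = algebraMap k K a' + algebraMap k K b' * s) :
    a = a' ∧ b = b' := by
  have hs := hS.s_ne
  have h2K := two_K hS
  have h1 := congrArg Star.star h
  rw [star_add, star_add, star_mul', star_mul', hS.star_s, (hS.fix _).mpr ⟨a, rfl⟩,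
    (hS.fix _).mpr ⟨b, rfl⟩, (hS.fix _).mpr ⟨a', rfl⟩, (hS.fix _).mpr ⟨b', rfl⟩] at h1
  have h2 : algebraMap k K a = algebraMap k K a' := by
    have : (2 : K) * (algebraMap k K a - algebraMap k K a') = 0 := by linear_combination h + h1
    exact sub_eq_zero.mp ((mul_eq_zero.mp this).resolve_left h2K)
  have h3 : algebraMap k K b = algebraMap k K b' := by
    have : (algebraMap k K b - algebraMap k K b') * s = 0 := by linear_combination h - h2
    exact sub_eq_zero.mp ((mul_eq_zero.mp this).resolve_right hs)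
  exact ⟨(algebraMap k K).injective h2, (algebraMap k K).injective h3⟩

theorem ks_alg (hS : SetF k K D d s) {a : k} (h : KS v s (algebraMap k K a)) :
    v.abv a < 1 := by
  obtain ⟨a', b', h1, ha, -⟩ := h
  have h2 : algebraMap k K a + algebraMap k K 0 * s =
      algebraMap k K a' + algebraMap k K b' * s := by
    rw [map_zero, zero_mul, add_zero, h1]
  rw [(ks_unique hS h2).1]
  exact ha

theorem not_ks_one (hS : SetF k K D d s) : ¬ KS v s (1 : K) := by
  intro h
  have h1 := ks_alg hS (a := 1) (by rwa [map_one])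
  rw [map_one] at h1
  exact lt_irrefl _ h1

variable [GFF k]

/-- At a nonsplit place an element of small norm is small. -/
theorem small_of_norm (h2 : (2 : k) ≠ 0) (hd : v.abv (d : k) = 1)
    (hLS : ¬ SqAt (d : k) v) {a b : k} (ha : v.abv a ≤ 1)
    (hb : v.abv b ≤ 1) (hn : v.abv (a ^ 2 - d * b ^ 2) < 1) :
    v.abv a < 1 ∧ v.abv b < 1 := by
  have hb1 : v.abv b < 1 := by
    by_contra hcon
    have hb1 : v.abv b = 1 := le_antisymm hb (not_lt.mp hcon)
    have hdb : v.abv (d * b ^ 2) = 1 := by rw [map_mul, map_pow, hd, hb1]; simp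
    have ha1 : v.abv a = 1 := by
      refine le_antisymm ha (not_lt.mp fun ha1 => ?_)
      have e : (d * b ^ 2 : k) = a ^ 2 + -(a ^ 2 - d * b ^ 2) := by ring
      have h3 : v.abv (d * b ^ 2 : k) < 1 := by
        rw [e]
        refine abv_add_lt ?_ (by rwa [AbsoluteValue.map_neg])
        rw [map_pow]
        exact pow_lt_one₀ (AbsoluteValue.nonneg _ _) ha1 two_ne_zero
      rw [hdb] at h3
      exact lt_irrefl _ h3
    have ha0 : a ≠ 0 := by
      rintro rfl
      rw [map_zero] at ha1
      exact zero_ne_one ha1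
    have hb0 : b ≠ 0 := by
      rintro rfl
      rw [map_zero] at hb1
      exact zero_ne_one hb1
    apply hLS
    obtain ⟨β, hβ⟩ := exists_sqrt h2 v (x := d * b ^ 2 / a ^ 2) (by
      have e : (d : k) * b ^ 2 / a ^ 2 - 1 = -((a ^ 2 - d * b ^ 2) / a ^ 2) := by
        field_simp
        ring
      rw [e, AbsoluteValue.map_neg, map_div₀, map_pow, ha1, one_pow, div_one]
      exact hn)
    refine ⟨algebraMap k v.comp (a / b) * β, ?_⟩
    rw [mul_pow, hβ, ← map_pow, ← map_mul]
    congr 1
    field_simp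
  refine ⟨?_, hb1⟩
  have h3 : v.abv (a ^ 2) < 1 := by
    have e : a ^ 2 = d * b ^ 2 + (a ^ 2 - d * b ^ 2) := by ring
    rw [e]
    refine abv_add_lt ?_ hn
    rw [map_mul, map_pow, hd, one_mul]
    exact pow_lt_one₀ (AbsoluteValue.nonneg _ _) hb1 two_ne_zero
  rw [map_pow] at h3
  by_contra hcon
  rw [not_lt] at hcon
  exact absurd (one_le_pow₀ hcon : 1 ≤ v.abv a ^ 2) (not_le.mpr h3)

/-- Integral and not small: a unit. -/
theorem unit_of_not_small (hS : SetF k K D d s)
    (hd : v.abv (d : k) = 1) (hLS : ¬ SqAt (d : k) v) {e : K} (he : KI v s e)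
    (hs : ¬ KS v s e) :
    ∃ c : k, Star.star e * e = algebraMap k K c ∧ v.abv c = 1 := by
  obtain ⟨a, b, rfl, ha, hb⟩ := he
  refine ⟨a ^ 2 - d * b ^ 2, ?_, ?_⟩
  · rw [star_add, star_mul', hS.star_s, (hS.fix _).mpr ⟨a, rfl⟩, (hS.fix _).mpr ⟨b, rfl⟩, map_sub,
      map_mul, map_pow, map_pow, ← hS.sq]
    ring
  · apply le_antisymm
    · rw [sub_eq_add_neg]
      refine abv_add_le (abv_pow_le ha 2) ?_
      rw [AbsoluteValue.map_neg]
      exact abv_mul_le hd.le (abv_pow_le hb 2)
    · by_contra hcon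
      obtain ⟨h3, h4⟩ := small_of_norm hS.two_ne hd hLS ha hb (not_le.mp hcon)
      exact hs ⟨a, b, rfl, h3, h4⟩

/-- The norm of an element which is small is small; conversely at nonsplit places. -/
theorem small_of_mul_star (hS : SetF k K D d s)
    (hd : v.abv (d : k) = 1) (hLS : ¬ SqAt (d : k) v) {e : K} (he : KI v s e)
    {M : ℕ} (h : KS v s ((e * Star.star e) ^ M)) : KS v s e := by
  by_contra hcon
  obtain ⟨c, hc, hc1⟩ := unit_of_not_small hS hd hLS he hcon
  rw [mul_comm, hc, ← map_pow] at h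
  have h3 := ks_alg hS h
  rw [map_pow, hc1, one_pow] at h3
  exact lt_irrefl _ h3

/-- Almost all places are good for an element of `K`. -/
theorem finite_not_ki (hS : SetF k K D d s) (e : K) :
    {v : Place k | ¬ KI v s e}.Finite := by
  obtain ⟨a, b, rfl⟩ := exists_ks hS e
  refine ((finite_big a).union (finite_big b)).subset fun v hv => ?_
  simp only [Set.mem_union, Set.mem_ofPred_eq]
  by_contra hcon
  push Not at hcon
  exact hv ⟨a, b, rfl, hcon.1, hcon.2⟩

theorem finite_ks (hS : SetF k K D d s) {e : K} (he : e ≠ 0) :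
    {v : Place k | KS v s e}.Finite := by
  obtain ⟨a, b, rfl⟩ := exists_ks hS e
  by_cases ha : a = 0
  · have hb : b ≠ 0 := by
      rintro rfl
      apply he
      rw [ha]; simp
    refine (place_finite hb).subset fun v hv => ?_
    obtain ⟨a', b', h1, -, h3⟩ := hv
    intro hcon
    rw [← (ks_unique hS h1).2] at h3
    exact absurd hcon h3.ne
  · refine (place_finite ha).subset fun v hv => ?_
    obtain ⟨a', b', h1, h2, -⟩ := hv
    intro hcon
    rw [← (ks_unique hS h1).1] at h2
    exact absurd hcon h2.ne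

/-- Values of a polynomial at integral points. -/
theorem finite_poly (hS : SetF k K D d s) (p : K[X]) :
    ∃ S : Set (Place k), S.Finite ∧ ∀ v ∉ S, ∀ t : k, v.abv t ≤ 1 →
      KI v s (p.eval (algebraMap k K t)) := by
  refine ⟨{v | ¬ v.abv (d : k) = 1} ∪
    ⋃ i ∈ Finset.range (p.natDegree + 1), {v | ¬ KI v s (p.coeff i)}, ?_, ?_⟩
  · exact (finite_not_unit d.ne_zero).union (Set.Finite.biUnion (Finset.finite_toSet _)
      fun i _ => finite_not_ki hS _)
  · intro v hv t ht
    simp only [Set.mem_union, Set.mem_iUnion, Set.mem_ofPred_eq, not_or, not_exists, not_not]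
      at hv
    obtain ⟨hd, hc⟩ := hv
    have hpow : ∀ i : ℕ, KI v s (algebraMap k K t ^ i) := by
      intro i
      rw [← map_pow]
      exact ki_of (abv_pow_le ht i)
    rw [eval_eq_sum_range]
    have : ∀ T : Finset ℕ, T ⊆ Finset.range (p.natDegree + 1) →
        KI v s (∑ i ∈ T, p.coeff i * algebraMap k K t ^ i) := by
      intro T
      induction T using Finset.induction_on with
      | empty =>
        intro _
        rw [Finset.sum_empty]
        have := ki_of (v := v) (s := s) (a := 0) (by simp)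
        rwa [map_zero] at this
      | insert i T hi ih =>
        intro hT
        rw [Finset.sum_insert hi]
        exact ((hc i (hT (Finset.mem_insert_self _ _))).mul hS hd.le (hpow i)).add
          (ih fun j hj => hT (Finset.mem_insert_of_mem hj))
    exact this _ subset_rfl

end base

section integral

variable {k K D : Type} [Field k] [GFF k] [Field K] [StarRing K]
    [DivisionRing D] [StarRing D] [Algebra k K] [Algebra k D] [Algebra K D] [IsScalarTower k K D]
    {d : kˣ} {s : K} {N : ℕ} (B : Basis (Fin N) k D)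

/-- Integral at almost all places, uniformly at the integral points of the line. -/
def EI (ψ : k → D) : Prop := ∃ S : Set (Place k), S.Finite ∧
  ∀ v ∉ S, ∀ t : k, v.abv t ≤ 1 → Ig B v.abv (ψ t)

variable {B}

theorem ei_const (x : D) : EI B fun _ : k => x := by
  refine ⟨{v | ¬ Ig B v.abv x}, ?_, fun v hv t _ => by
    simpa using hv⟩
  refine (Set.finite_iUnion fun i => finite_big (B.repr x i)).subset fun v hv => ?_
  simp only [Set.mem_ofPred_eq, Ig, not_forall] at hv
  obtain ⟨i, hi⟩ := hv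
  exact Set.mem_iUnion.mpr ⟨i, hi⟩

theorem EI.add {ψ ψ' : k → D} (h : EI B ψ) (h' : EI B ψ') : EI B fun t => ψ t + ψ' t := by
  obtain ⟨S, hS, h1⟩ := h
  obtain ⟨S', hS', h1'⟩ := h'
  refine ⟨S ∪ S', hS.union hS', fun v hv t ht => ?_⟩
  rw [Set.mem_union, not_or] at hv
  exact Gd.add (isNonarch v) (h1 v hv.1 t ht) (h1' v hv.2 t ht)

theorem EI.sub {ψ ψ' : k → D} (h : EI B ψ) (h' : EI B ψ') : EI B fun t => ψ t - ψ' t := by
  obtain ⟨S, hS, h1⟩ := h
  obtain ⟨S', hS', h1'⟩ := h'
  refine ⟨S ∪ S', hS.union hS', fun v hv t ht => ?_⟩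
  rw [Set.mem_union, not_or] at hv
  exact Gd.sub (isNonarch v) (h1 v hv.1 t ht) (h1' v hv.2 t ht)

theorem EI.mul {ψ ψ' : k → D} (h : EI B ψ) (h' : EI B ψ') : EI B fun t => ψ t * ψ' t := by
  obtain ⟨S, hS, h1⟩ := h
  obtain ⟨S', hS', h1'⟩ := h'
  refine ⟨S ∪ S' ∪ {v | ¬ Gd B v.abv}, (hS.union hS').union (finite_bad B),
    fun v hv t ht => ?_⟩
  simp only [Set.mem_union, not_or, Set.mem_ofPred_eq, not_not] at hv
  exact hv.2.mul' (h1 v hv.1.1 t ht) (h1' v hv.1.2 t ht)

theorem EI.star (hS : SetF k K D d s) {ψ : k → D} (h : EI B ψ) :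
    EI B fun t => Star.star (ψ t) := by
  obtain ⟨S, hSf, h1⟩ := h
  refine ⟨S ∪ {v | ¬ Gd B v.abv}, hSf.union (finite_bad B), fun v hv t ht => ?_⟩
  simp only [Set.mem_union, not_or, Set.mem_ofPred_eq, not_not] at hv
  exact hv.2.star (star_k hS) (h1 v hv.1 t ht)

theorem EI.tsmul {ψ : k → D} (h : EI B ψ) : EI B fun t => t • ψ t := by
  obtain ⟨S, hS, h1⟩ := h
  exact ⟨S, hS, fun v hv t ht => Gd.smul ht (h1 v hv t ht)⟩

variable (B) in
/-- The same for functions with values in `K`. -/
def EK (φ : k → K) : Prop := EI B fun t => algebraMap K D (φ t)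

theorem EK.mul {φ φ' : k → K} (h : EK (D := D) B φ) (h' : EK B φ') :
    EK B fun t => φ t * φ' t := by
  have := EI.mul h h'
  simpa only [EK, map_mul] using this

theorem EK.sub {φ φ' : k → K} (h : EK (D := D) B φ) (h' : EK B φ') :
    EK B fun t => φ t - φ' t := by
  have := EI.sub h h'
  simpa only [EK, map_sub] using this

theorem ek_const (c : K) : EK (k := k) (D := D) B fun _ => c := ei_const _

theorem EI.ksmul {φ : k → K} {ψ : k → D} (h : EK B φ) (h' : EI B ψ) :
    EI B fun t => φ t • ψ t := by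
  have := EI.mul h h'
  simpa only [← Algebra.smul_def] using this

variable (C : Cub K D)

theorem EI.T {ψ : k → D} (h : EI B ψ) : EK B fun t => C.T (ψ t) := by
  have e : ∀ y : D, algebraMap K D (C.T y) =
      ∑ i, B.repr y i • algebraMap K D (C.T (B i)) := by
    intro y
    conv_lhs => rw [← B.sum_repr y]
    rw [map_sum, map_sum]
    refine Finset.sum_congr rfl fun i _ => ?_
    rw [← algebraMap_smul K (B.repr y i) (B i), map_smul, smul_eq_mul, map_mul,
      ← IsScalarTower.algebraMap_apply, ← Algebra.smul_def]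
  obtain ⟨S, hS, h1⟩ := h
  choose S' hS' h1' using fun i => ei_const (k := k) (B := B) (algebraMap K D (C.T (B i)))
  refine ⟨S ∪ ⋃ i, S' i, hS.union (Set.finite_iUnion hS'), fun v hv t ht => ?_⟩
  simp only [Set.mem_union, not_or, Set.mem_iUnion, not_exists] at hv
  change Ig B _ (algebraMap K D (C.T (ψ t)))
  rw [e]
  exact Gd.sum (isNonarch v) _ fun i _ => Gd.smul (h1 v hv.1 t ht i) (h1' i v (hv.2 i) t ht)

theorem EI.adj (hK : (2 : K) ≠ 0) {ψ : k → D} (h : EI B ψ) : EI B fun t => C.adj (ψ t) := by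
  have e : ∀ x : D, C.adj x = x * x - C.T x • x +
      ((2 : K)⁻¹ * (C.T x * C.T x - C.T (x * x))) • (1 : D) := by
    intro x
    have h1 := C.T_cr x x
    rw [C.cr_self, map_smul, smul_eq_mul] at h1
    rw [← h1, ← mul_assoc, inv_mul_cancel₀ hK, one_mul]
    exact C.adj_eq x
  simp only [e]
  exact ((h.mul h).sub (EI.ksmul (h.T C) h)).add
    (EI.ksmul ((ek_const _).mul (((h.T C).mul (h.T C)).sub ((h.mul h).T C))) (ei_const 1))

theorem EI.be (hK : (2 : K) ≠ 0) {ψ : k → D} (z : D) (h : EI B ψ) :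
    EI B fun t => be C z (ψ t) :=
  (EI.ksmul (((ei_const z).mul (h.adj C hK)).T C) (ei_const 1)).add
    (EI.ksmul (((ei_const z).mul h).T C) h)

theorem EI.qq (hK : (2 : K) ≠ 0) {ψ : k → D} (w z z' : D) (h : EI B ψ) :
    EI B fun t => qq C w z z' (ψ t) :=
  ((ei_const w).mul (h.be C hK z')).mul ((h.be C hK z).adj C hK)

theorem EI.hr (hK : (2 : K) ≠ 0) {ψ ψ' : k → D} (c : D) (h : EI B ψ) (h' : EI B ψ') :
    EI B fun t => hr C (ψ t) (ψ' t) c :=
  (((h.mul h).mul (ei_const c)).add ((h.mul (ei_const c)).mul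
    (h'.sub (EI.ksmul (h'.T C) (ei_const 1))))).add ((ei_const c).mul (h'.adj C hK))

theorem EI.line (a b : D) : EI B fun t : k => a + t • b := (ei_const a).add (ei_const b).tsmul

/-- The adjoint up to the conjugate of the norm. -/
theorem EI.nadj (hS : SetF k K D d s) {ψ : k → D} (h : EI B ψ) :
    EI B fun t => Star.star (C.N (ψ t)) • C.adj (ψ t) := by
  have hK := two_K hS
  have e : ∀ x : D, Star.star (C.N x) • C.adj x = Star.star (x * C.adj x) * C.adj x := by
    intro x
    rw [C.mul_adj, hS.star_smul, star_one, smul_mul_assoc, one_mul]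
  simp only [e]
  exact ((h.mul (h.adj C hK)).star hS).mul (h.adj C hK)

end integral

end Vale.Agent.P011.H158.N4
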