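import Vale.Agent.P011.H210.SplitReg

/-!
# Elements which are split regular at a place are separable of maximal degree

`A` a `K`-algebra of dimension `n ^ 2` with a ring homomorphism `f` to `M_n(F)` over a field
homomorphism `K → F`, whose image spans `M_n(F)` over `F`. If `f s` is split regular then the
minimal polynomial of `s` over `K` is separable of degree `n`.
-/

namespace Vale.Agent.P011.H158

open Polynomial Matrix

variable {K A F : Type*} [Field K] [Ring A] [Algebra K A] [Field F] {n : ℕ}

/-- Independence over `K` gives independence of the images over `F`. -/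
theorem linearIndependent_image [FiniteDimensional K A] (φ : K →+* F)
    (f : A →+* Matrix (Fin n) (Fin n) F)
    (hf : ∀ c : K, f (algebraMap K A c) = algebraMap F _ (φ c))
    (hspan : Submodule.span F (Set.range f) = ⊤) (hdim : Module.finrank K A = n ^ 2)
    {ι : Type*} {v : ι → A} (hv : LinearIndependent K v) :
    LinearIndependent F (fun i => f (v i)) := by
  classical
  have hfs : ∀ (c : K) (x : A), f (c • x) = φ c • f x := by
    intro c x
    rw [Algebra.smul_def, map_mul, hf, Algebra.smul_def]
  let b := Module.Basis.sumExtend hv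
  have hfin : Finite (ι ⊕ Module.Basis.sumExtendIndex hv) := Module.Finite.finite_basis b
  let _ : Fintype (ι ⊕ Module.Basis.sumExtendIndex hv) := Fintype.ofFinite _
  have hcard : Fintype.card (ι ⊕ Module.Basis.sumExtendIndex hv) =
      Module.finrank F (Matrix (Fin n) (Fin n) F) := by
    rw [← Module.finrank_eq_card_basis b, hdim, Module.finrank_matrix]
    simp [sq]
  have htop : ⊤ ≤ Submodule.span F (Set.range fun i => f (b i)) := by
    rw [← hspan, Submodule.span_le]
    rintro _ ⟨x, rfl⟩
    rw [← b.sum_repr x, map_sum]
    refine Submodule.sum_mem _ fun i _ => ?_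
    rw [hfs]
    exact Submodule.smul_mem _ _ (Submodule.subset_span ⟨i, rfl⟩)
  have h1 := linearIndependent_of_top_le_span_of_card_eq_finrank htop hcard
  have h2 := h1.comp Sum.inl Sum.inl_injective
  have h3 : (fun i => f (v i)) = (fun i => f (b i)) ∘ Sum.inl := by
    funext i
    simp only [b, Module.Basis.sumExtend, Function.comp_apply, Module.Basis.reindex_apply,
      Module.Basis.extend_apply_self]
    rfl
  rw [h3]
  exact h2

theorem aeval_diagonal {a : Fin n → F} (p : F[X]) :
    aeval (diagonal a) p = diagonal fun j => p.eval (a j) := by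
  have h1 := aeval_algHom_apply (diagonalAlgHom F : (Fin n → F) →ₐ[F] Matrix (Fin n) (Fin n) F) a p
  rw [diagonalAlgHom_apply] at h1
  rw [h1, diagonalAlgHom_apply]
  congr 1
  funext j
  have h2 := aeval_algHom_apply (Pi.evalAlgHom F (fun _ : Fin n => F) j) a p
  rw [Pi.evalAlgHom_apply, Pi.evalAlgHom_apply, coe_aeval_eq_eval] at h2
  exact h2.symm

/-- **Split regular elements have separable minimal polynomials of degree `n`.** -/
theorem minpoly_of_SR [FiniteDimensional K A] (φ : K →+* F)
    (f : A →+* Matrix (Fin n) (Fin n) F)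
    (hf : ∀ c : K, f (algebraMap K A c) = algebraMap F _ (φ c))
    (hspan : Submodule.span F (Set.range f) = ⊤) (hdim : Module.finrank K A = n ^ 2)
    {s : A} (hs : f s ∈ H210.SR (Fin n) F) :
    (minpoly K s).Separable ∧ (minpoly K s).natDegree = n := by
  classical
  obtain ⟨h, a, ha, hfs⟩ := hs
  have hint : IsIntegral K s := IsIntegral.of_finite K s
  set μ := minpoly K s with hμ
  -- degree
  have hdeg : μ.natDegree ≤ n := by
    by_contra hlt
    push Not at hlt
    have h1 := linearIndependent_image φ f hf hspan hdim (linearIndependent_pow (K := K) s)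
    have h2 : LinearIndependent F fun i : Fin (n + 1) => (f s) ^ (i : ℕ) := by
      have h3 := h1.comp (Fin.castLE hlt) (Fin.castLE_injective hlt)
      have h4 : (fun i : Fin (n + 1) => (f s) ^ (i : ℕ)) =
          (fun i : Fin μ.natDegree => f (s ^ (i : ℕ))) ∘ Fin.castLE hlt := by
        funext i
        simp
      rw [h4]
      exact h3
    have h5 := Fintype.linearIndependent_iff.mp h2 (fun i => (f s).charpoly.coeff i) (by
      have h6 := Matrix.aeval_self_charpoly (f s)
      rw [aeval_eq_sum_range, Matrix.charpoly_natDegree_eq_dim, Fintype.card_fin] at h6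
      rw [← h6, Finset.sum_range]) (Fin.last n)
    have h7 : (f s).charpoly.coeff n = 1 := by
      have h8 := (Matrix.charpoly_monic (f s)).coeff_natDegree
      rwa [Matrix.charpoly_natDegree_eq_dim, Fintype.card_fin] at h8
    rw [Fin.val_last, h7] at h5
    exact one_ne_zero h5
  -- roots
  have hroot : ∀ j, (μ.map φ).eval (a j) = 0 := by
    have h1 : aeval (f s) (μ.map φ) = 0 := by
      have h2 : ∀ p : K[X], aeval (f s) (p.map φ) = f (aeval s p) := by
        intro p
        induction p using Polynomial.induction_on' with
        | add p q hp hq => rw [Polynomial.map_add, map_add, map_add, map_add, hp, hq]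
        | monomial m c =>
          rw [map_monomial, aeval_monomial, aeval_monomial, map_mul, map_pow, hf]
      rw [h2, hμ, minpoly.aeval, map_zero]
    rw [hfs] at h1
    have h3 : aeval ((h : Matrix (Fin n) (Fin n) F) * diagonal a *
        ((h⁻¹ : (Matrix (Fin n) (Fin n) F)ˣ) : Matrix (Fin n) (Fin n) F)) (μ.map φ) =
        (h : Matrix (Fin n) (Fin n) F) * aeval (diagonal a) (μ.map φ) *
        ((h⁻¹ : (Matrix (Fin n) (Fin n) F)ˣ) : Matrix (Fin n) (Fin n) F) := by
      generalize μ.map φ = p
      induction p using Polynomial.induction_on' with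
      | add p q hp hq => rw [map_add, map_add, hp, hq, mul_add, add_mul]
      | monomial m c =>
        rw [aeval_monomial, aeval_monomial, Units.conj_pow, ← mul_assoc, ← mul_assoc,
          Algebra.commutes, mul_assoc (h : Matrix (Fin n) (Fin n) F)]
    rw [h3, aeval_diagonal] at h1
    have h4 : diagonal (fun j => (μ.map φ).eval (a j)) = 0 := by
      have h5 := congrArg (fun M => ((h⁻¹ : (Matrix (Fin n) (Fin n) F)ˣ) :
        Matrix (Fin n) (Fin n) F) * M * (h : Matrix (Fin n) (Fin n) F)) h1
      simpa [mul_assoc] using h5
    intro j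
    have h6 := congrFun (congrFun h4 j) j
    simpa using h6
  have hmon : (μ.map φ).Monic := (minpoly.monic hint).map φ
  have hdvd : (∏ j : Fin n, (X - C (a j))) ∣ μ.map φ := by
    refine Finset.prod_dvd_of_coprime ?_ fun j _ => ?_
    · intro i _ j _ hij
      exact isCoprime_X_sub_C_of_isUnit_sub (sub_ne_zero.mpr (fun h => hij (ha h))).isUnit
    · exact dvd_iff_isRoot.mpr (hroot j)
  have hprod : (∏ j : Fin n, (X - C (a j))).Monic := monic_prod_of_monic _ _ fun j _ =>
    monic_X_sub_C _
  have hnat : (∏ j : Fin n, (X - C (a j))).natDegree = n := by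
    rw [natDegree_prod_of_monic _ _ fun j _ => monic_X_sub_C _]
    simp
  have hmap : (μ.map φ).natDegree = μ.natDegree := natDegree_map φ
  have heq : ∏ j : Fin n, (X - C (a j)) = μ.map φ :=
    (eq_of_monic_of_dvd_of_natDegree_le hprod hmon hdvd (by rw [hmap, hnat]; exact hdeg)).symm
  refine ⟨?_, ?_⟩
  · rw [← separable_map φ, ← heq]
    exact separable_prod_X_sub_C_iff.mpr ha
  · rw [← hmap, ← heq, hnat]

end Vale.Agent.P011.H158
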